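import Vale.Agent.P216.D133.Lad

/-!
# P216-D, block [D2-OM]: acyclicity of the paths over `Q`

`f : M → Q`, `g : Q → M` with `g ∘ f ~ id`, `f ∘ g ~ id`.  The pairs `(y, w)`, `w` a path from
`g y` to `b`, have no cohomology in the degrees `≥ 1`, up to a bounded shift.
-/

set_option linter.all false

open Set Filter Topology BoundedContinuousFunction

namespace Vale.Agent.P216.D133

open Vale.Agent.P216.AS Vale.Agent.P216.H901 Vale.Agent.P216.H83 Vale.Agent.P216.H550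
open Vale.Agent.P216.H456 Vale.Agent.P216.MV337 Vale.Agent.P216.H133C Vale.Agent.P216.PS
open Vale.Agent.P216.C313 (EY EY_mono)
open Vale.Agent.P216.C337 (TrY PY PY_mono isMap_tw tw_mem tw c2)

section Geo

variable {Q M : Type} [MetricSpace Q] [CompactSpace Q] [MetricSpace M] [CompactSpace M]
  {g : Q → M} {f : M → Q} {b : M} {ℓ ℓ' : ℝ} {T : M → ℝ → M} {Hh : Q × ℝ → Q}
  {T' : Q × ℝ → ℝ → M}

theorem tr_b {Y : Type} [TopologicalSpace Y] (b : M) :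
    TrY (univ : Set Y) (fun _ => b) (fun _ => b) 0 (fun _ _ => b) :=
  TrY.const_ continuousOn_const

theorem tr_of_tk (hT : Tk (univ : Set M) id (fun x => g (f x)) ℓ T) :
    TrY (univ : Set M) id (fun x => g (f x)) ℓ T :=
  ⟨hT.nonneg, hT.lip, hT.left, hT.right, hT.cont⟩

/-- `F : PF b t → EQ g b (t + ℓ)` -/
noncomputable def fPF (f : M → Q) (b : M) (ℓ : ℝ) (T : M → ℝ → M) (t : ℝ) (w : ℝ →ᵇ M) :
    Q × (ℝ →ᵇ M) :=
  (f (w 0), mo (c2 ℓ t (T (w 0)) (fun _ => b) w))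

variable (hg : Continuous g) (hf : Continuous f)
  (hT : Tk (univ : Set M) id (fun x => g (f x)) ℓ T) (hH : HTk g (fun y => f (g y)) Hh ℓ' T')

include hg hf hT in
theorem map_fPF {t : ℝ} (ht : 0 < t) :
    IsMap (tr (ℝ →ᵇ M)) (tr (Q × (ℝ →ᵇ M))) (PF b t) (EQ g b (t + (ℓ + 0))) (fPF f b ℓ T t) := by
  have hgf : ContinuousOn (fun x => g (f x)) univ := by fun_prop
  have hn := hT.nonneg
  have m1 : IsMap (tr (ℝ →ᵇ M)) (tr (M × (ℝ →ᵇ M))) (PF b t) (PY id (fun _ => b) univ t)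
      (fun w => (w 0, w)) :=
    MV337.map_of_cont (isCompact_PF b ht.le) (by fun_prop) fun w hw => ⟨trivial, hw⟩
  have m2 := isMap_tw isCompact_univ continuousOn_id (continuousOn_const (c := b)) (tr_of_tk hT)
    (tr_b b) ht
  have m3 : IsMap (tr (M × (ℝ →ᵇ M))) (tr (Q × (ℝ →ᵇ M)))
      (PY (fun x => g (f x)) (fun _ => b) univ (t + (ℓ + 0))) (EQ g b (t + (ℓ + 0)))
      (fun q => (f q.1, q.2)) :=
    MV337.map_of_cont (C337.isCompact_PY isCompact_univ hgf continuousOn_const (by linarith))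
      (by fun_prop) fun q hq => ⟨trivial, hq.2⟩
  exact m3.comp (m2.comp m1)

/-- delays are homotopic to the identity -/
theorem hp_delayE (hg : Continuous g) (hℓ : 0 ≤ ℓ') {t : ℝ} (ht : 0 < t) :
    Hp (EQ g b t) ∅ (EQ g b (t + (ℓ' + 0))) ∅ id
      (fun q => (q.1, mo (c2 ℓ' t (fun _ => g q.1) (fun _ => b) q.2))) := by
  have hW : ∀ q ∈ EQ g b t, q.2 ∈ P (g q.1) b t := fun q hq => hq.2
  have hmem : ∀ σ ∈ Icc (0:ℝ) 1, ∀ q ∈ EQ g b t,
      mo (c2 (σ * ℓ') t (fun _ => g q.1) (fun _ => b) q.2) ∈ P (g q.1) b (t + (σ * ℓ' + 0)) :=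
    fun σ hσ q hq => C337.mo_c2_mem (lip_const _) (lip_const _) (hW q hq).1 ht.le
      (mul_nonneg hσ.1 hℓ) le_rfl (eq_left (hW q hq) le_rfl) (eq_right (hW q hq) le_rfl)
      (fun _ _ => rfl) fun _ _ => rfl
  have hle : ∀ σ ∈ Icc (0:ℝ) 1, t + (σ * ℓ' + 0) ≤ t + (ℓ' + 0) := fun σ hσ => by
    have := mul_le_mul_of_nonneg_right hσ.2 hℓ
    linarith
  refine MV337.hp_of_cont (isCompact_EQ hg ht.le) (F := fun p : ℝ × (Q × (ℝ →ᵇ M)) =>
    (p.2.1, mo (c2 (p.1 * ℓ') t (fun _ => g p.2.1) (fun _ => b) p.2.2))) ?_ ?_ ?_ ?_ ?_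
  · refine C337.continuousOn_mo_c2 (C := t + (ℓ' + 0)) (by fun_prop) (by fun_prop)
      continuousOn_const (by fun_prop) (fun φ hφ => ?_) (fun φ hφ => continuousOn_const)
      (fun _ _ => ht.le)
      (fun p hp => eq_left (hW _ hp.2) le_rfl) (fun p hp => eq_right (hW _ hp.2) le_rfl)
      (fun _ _ => lip_const _) (fun _ _ => lip_const _) (fun p hp => (hW _ hp.2).1)
      (by linarith) fun p hp => ?_
    · exact hg.comp_continuousOn (by fun_prop)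
    · exact PP_mono (hle _ hp.1) (P_subset_PP (hmem _ hp.1 _ hp.2))
  · intro σ hσ q hq
    exact ⟨trivial, P_mono (hle σ hσ) (hmem σ hσ q hq)⟩
  · intro σ _ q hq
    exact hq.elim
  · intro q hq
    refine Prod.ext rfl ?_
    show mo (c2 (0 * ℓ') t (fun _ => g q.1) (fun _ => b) q.2) = q.2
    rw [zero_mul]
    have e : c2 0 t (fun _ => g q.1) (fun _ => b) q.2 = fun v => q.2 v := by
      funext v
      rw [C337.c2_const _ _ _ ht.le (hW q hq).2.1 (hW q hq).2.2, sub_zero]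
    rw [e, mo_self]
  · intro q hq
    show (q.1, mo (c2 (1 * ℓ') t (fun _ => g q.1) (fun _ => b) q.2)) = _
    rw [one_mul]

include hH hg in
/-- moving the start point along the homotopy -/
theorem hp_moveE {t : ℝ} (ht : 0 < t) :
    Hp (EQ g b t) ∅ (EQ g b (t + (ℓ' + 0))) ∅
      (fun q => (q.1, mo (c2 ℓ' t (fun _ => g q.1) (fun _ => b) q.2)))
      (fun q => (f (g q.1), mo (c2 ℓ' t (T' (q.1, 1)) (fun _ => b) q.2))) := by
  have h := hH
  have hn := h.tr.nonneg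
  have hW : ∀ q ∈ EQ g b t, q.2 ∈ P (g q.1) b t := fun q hq => hq.2
  have hL : ∀ σ ∈ Icc (0:ℝ) 1, ∀ y : Q, (y, σ) ∈ (univ : Set Q) ×ˢ Icc (0:ℝ) 1 := fun σ hσ y =>
    ⟨trivial, hσ⟩
  have h00 : ∀ σ ∈ Icc (0:ℝ) 1, ∀ q ∈ EQ g b t, q.2 0 = T' (q.1, σ) 0 := fun σ hσ q hq => by
    rw [eq_left (hW q hq) le_rfl, h.tr.left _ (hL σ hσ q.1) 0 le_rfl]
  have hmem : ∀ σ ∈ Icc (0:ℝ) 1, ∀ q ∈ EQ g b t,
      mo (c2 ℓ' t (T' (q.1, σ)) (fun _ => b) q.2) ∈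
        P (g (Hh (q.1, σ))) b (t + (ℓ' + 0)) := fun σ hσ q hq =>
    C337.mo_c2_mem (h.tr.lip _ (hL σ hσ q.1)) (lip_const _) (hW q hq).1 ht.le hn le_rfl
      (h00 σ hσ q hq) (eq_right (hW q hq) le_rfl) (h.tr.right _ (hL σ hσ q.1)) fun _ _ => rfl
  refine MV337.hp_of_cont (isCompact_EQ hg ht.le) (F := fun p : ℝ × (Q × (ℝ →ᵇ M)) =>
    (Hh (p.2.1, p.1), mo (c2 ℓ' t (T' (p.2.1, p.1)) (fun _ => b) p.2.2))) ?_ ?_ ?_ ?_ ?_
  · have hc := h.Hc
    refine C337.continuousOn_mo_c2 (C := t + (ℓ' + 0)) (by fun_prop) (by fun_prop)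
      continuousOn_const continuousOn_const (fun φ hφ => ?_) (fun φ hφ => continuousOn_const)
      (fun _ _ => ht.le)
      (fun p hp => h00 _ hp.1 _ hp.2) (fun p hp => eq_right (hW _ hp.2) le_rfl)
      (fun p hp => h.tr.lip _ (hL _ hp.1 _)) (fun p hp => lip_const _)
      (fun p hp => (hW _ hp.2).1) (by linarith) fun p hp => ?_
    · exact h.tr.cont' (X := fun p : ℝ × (Q × (ℝ →ᵇ M)) => ((p.2.1, p.1) : Q × ℝ)) (by fun_prop)
        (fun p hp => ⟨trivial, hp.1⟩) hφ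
    · exact P_subset_PP (hmem _ hp.1 _ hp.2)
  · intro σ hσ q hq
    exact ⟨trivial, hmem σ hσ q hq⟩
  · intro σ _ q hq
    exact hq.elim
  · intro q hq
    have e : T' (q.1, 0) = fun _ => g q.1 := funext fun v => h.c0 q.1 v
    show (Hh (q.1, 0), mo (c2 ℓ' t (T' (q.1, 0)) (fun _ => b) q.2)) = _
    rw [h.H0, e]
  · intro q hq
    show (Hh (q.1, 1), mo (c2 ℓ' t (T' (q.1, 1)) (fun _ => b) q.2)) = _
    rw [h.H1]

/-- `Θ : EQ g b t → PF b (t + ℓ' + ℓ)` -/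
noncomputable def thE (g : Q → M) (b : M) (ℓ ℓ' : ℝ) (T : M → ℝ → M) (T' : Q × ℝ → ℝ → M) (t : ℝ)
    (q : Q × (ℝ →ᵇ M)) : ℝ →ᵇ M :=
  (tw ℓ (t + (ℓ' + 0)) (C337.rv ℓ fun y => T (g y)) (fun _ _ => b)
    (tw ℓ' t (fun y => T' (y, 1)) (fun _ _ => b) q)).2

include hg hf hT hH in
theorem map1E {t : ℝ} (ht : 0 < t) :
    IsMap (tr (Q × (ℝ →ᵇ M))) (tr (Q × (ℝ →ᵇ M))) (EQ g b t)
      (PY (fun y => g (f (g y))) (fun _ => b) univ (t + (ℓ' + 0)))
      (tw ℓ' t (fun y => T' (y, 1)) fun _ _ => b) :=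
  isMap_tw isCompact_univ hg.continuousOn continuousOn_const hH.track1 (tr_b b) ht

include hg hf hT in
theorem map2E {t : ℝ} (ht : 0 < t) :
    IsMap (tr (Q × (ℝ →ᵇ M))) (tr (Q × (ℝ →ᵇ M)))
      (PY (fun y => g (f (g y))) (fun _ => b) univ t) (EQ g b (t + (ℓ + 0)))
      (tw ℓ t (C337.rv ℓ fun y => T (g y)) (fun _ _ => b)) := by
  have hc : ContinuousOn (fun y => g (f (g y))) univ := by fun_prop
  exact isMap_tw isCompact_univ hc continuousOn_const (track_g hg hT).rv_ (tr_b b) ht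

include hg in
theorem map_sndE {t : ℝ} (ht : 0 < t) :
    IsMap (tr (Q × (ℝ →ᵇ M))) (tr (ℝ →ᵇ M)) (EQ g b t) (PF b t) Prod.snd :=
  MV337.map_of_cont (isCompact_EQ hg ht.le) continuousOn_snd fun q hq => by
    have h0 : q.2 0 = g q.1 := eq_left hq.2 le_rfl
    show q.2 ∈ P (q.2 0) b t
    rw [h0]
    exact hq.2

include hg hf hT hH in
theorem map_thE {t : ℝ} (ht : 0 < t) :
    IsMap (tr (Q × (ℝ →ᵇ M))) (tr (ℝ →ᵇ M)) (EQ g b t) (PF b (t + (ℓ' + 0) + (ℓ + 0)))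
      (thE g b ℓ ℓ' T T' t) := by
  have hn := hH.tr.nonneg
  have hn' := hT.nonneg
  exact (map_sndE hg (by linarith)).comp
    ((map2E hg hf hT (t := t + (ℓ' + 0)) (by linarith)).comp (map1E hg hf hT hH ht))

include hg hf in
/-- the map `(y, v) ↦ (f (g y), v)` -/
theorem map_betaE {t : ℝ} (ht : 0 < t) :
    IsMap (tr (Q × (ℝ →ᵇ M))) (tr (Q × (ℝ →ᵇ M)))
      (PY (fun y => g (f (g y))) (fun _ => b) univ t) (EQ g b t)
      (fun q => (f (g q.1), q.2)) := by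
  have hc : ContinuousOn (fun y => g (f (g y))) univ := by fun_prop
  exact MV337.map_of_cont (C337.isCompact_PY isCompact_univ hc continuousOn_const ht.le)
    (by fun_prop) fun q hq => ⟨trivial, hq.2⟩

include hg hf hT hH in
/-- **`F ∘ Θ ~ id`.** -/
theorem hp_FThE {t : ℝ} (ht : 0 < t) :
    Hp (EQ g b t) ∅ (EQ g b (t + (ℓ' + 0) + (ℓ + 0) + (ℓ + 0))) ∅ id
      (fPF f b ℓ T (t + (ℓ' + 0) + (ℓ + 0)) ∘ thE g b ℓ ℓ' T T' t) := by
  have hn := hH.tr.nonneg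
  have hn' := hT.nonneg
  have hc : ContinuousOn (fun y => g (f (g y))) univ := by fun_prop
  have t1 : 0 < t + (ℓ' + 0) := by linarith
  have t2 : 0 < t + (ℓ' + 0) + (ℓ + 0) := by linarith
  have hTg := track_g hg hT
  -- `id ~ (y, w) ↦ (f (g y), transported w)`
  have A := hp_trans (hp_delayE (b := b) hg hn ht) (hp_moveE (f := f) hg hH ht)
  have A' : Hp (EQ g b t) ∅ (EQ g b (t + (ℓ' + 0) + (ℓ + 0) + (ℓ + 0))) ∅ id
      ((fun q : Q × (ℝ →ᵇ M) => (f (g q.1), q.2)) ∘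
        (tw ℓ' t (fun y => T' (y, 1)) fun _ _ => b)) :=
    H550.hp_mono A le_rfl le_rfl (EY_mono (by linarith) le_rfl) le_rfl
  -- `id ~ tw ∘ tw` over the middle
  have B0 := C337.hp_gf (A := (∅ : Set Q)) isCompact_univ hc (continuousOn_const (c := b))
    (empty_subset _) hTg.rv_ (tr_b b) t1
  rw [C337.rv_rv] at B0
  have B : Hp (PY (fun y => g (f (g y))) (fun _ => b) univ (t + (ℓ' + 0))) ∅
      (PY (fun y => g (f (g y))) (fun _ => b) univ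
        (t + (ℓ' + 0) + (ℓ + 0) + (ℓ + 0))) ∅ id
      (tw ℓ (t + (ℓ' + 0) + (ℓ + 0)) (fun y => T (g y)) (fun _ _ => b) ∘
        tw ℓ (t + (ℓ' + 0)) (C337.rv ℓ fun y => T (g y)) (fun _ _ => b)) :=
    B0.mono le_rfl (empty_subset _) (PY_mono le_rfl (by linarith)) fun q hq => hq.1.elim
  have C1 : Hp (EQ g b t) ∅ (EQ g b (t + (ℓ' + 0) + (ℓ + 0) + (ℓ + 0))) ∅
      ((fun q : Q × (ℝ →ᵇ M) => (f (g q.1), q.2)) ∘
        (id ∘ (tw ℓ' t (fun y => T' (y, 1)) fun _ _ => b)))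
      ((fun q : Q × (ℝ →ᵇ M) => (f (g q.1), q.2)) ∘
        ((tw ℓ (t + (ℓ' + 0) + (ℓ + 0)) (fun y => T (g y)) (fun _ _ => b) ∘
        tw ℓ (t + (ℓ' + 0)) (C337.rv ℓ fun y => T (g y)) (fun _ _ => b)) ∘
        (tw ℓ' t (fun y => T' (y, 1)) fun _ _ => b))) :=
    hp_comp_left (Z' := ∅) (hp_comp_right B (map1E hg hf hT hH ht) (mapsTo_empty _ _))
    (map_betaE (g := g) hg hf (t := t + (ℓ' + 0) + (ℓ + 0) + (ℓ + 0)) (by linarith))
    (mapsTo_empty _ _)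
  refine hp_congr (hp_trans A' C1) (fun _ _ => rfl) fun q hq => ?_
  -- the composite is `F ∘ Θ`
  have m1 := tw_mem (A := univ) hH.track1 (tr_b b) ht.le (mem_univ _) hq
  have m2 := tw_mem (A := univ) hTg.rv_ (tr_b b) t1.le (mem_univ _) m1
  have e0 : thE g b ℓ ℓ' T T' t q 0 = g q.1 := eq_left m2.2 le_rfl
  change (f (g q.1), mo (c2 ℓ (t + (ℓ' + 0) + (ℓ + 0)) (T (g q.1)) (fun _ => b)
      (thE g b ℓ ℓ' T T' t q))) = (f (thE g b ℓ ℓ' T T' t q 0),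
      mo (c2 ℓ (t + (ℓ' + 0) + (ℓ + 0)) (T (thE g b ℓ ℓ' T T' t q 0))
        (fun _ => b) (thE g b ℓ ℓ' T T' t q)))
  rw [e0]

include hg hf hT hH in
/-- **Acyclicity.** -/
theorem eph_EQ (k : Type) [Field k] (b : M) {q : ℕ} (hq : 1 ≤ q) :
    (pmX k (mono_EQ g b) q).Eph (ℓ' + 2 * ℓ) := by
  intro s t hs hst hle x
  have hn := hH.tr.nonneg
  have hn' := hT.nonneg
  have ht : 0 < t := hs.trans_le hst
  have s2 : 0 < s + (ℓ' + 0) + (ℓ + 0) := by linarith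
  have mTh := map_thE (b := b) hg hf hT hH hs
  have mF0 := map_fPF (b := b) hg hf hT s2
  have hsub : EQ g b (s + (ℓ' + 0) + (ℓ + 0) + (ℓ + 0)) ⊆ EQ g b t :=
    EY_mono (by linarith) le_rfl
  have mF : IsMap (tr (ℝ →ᵇ M)) (tr (Q × (ℝ →ᵇ M))) (PF b (s + (ℓ' + 0) + (ℓ + 0))) (EQ g b t)
      (fPF f b ℓ T (s + (ℓ' + 0) + (ℓ + 0))) := H901.IsMap.toSub mF0 hsub
  have e0 : (pullR (on k) (mF.comp mTh) (empty_subset _) (mapsTo_empty _ _) q :
        Hr (tr (Q × (ℝ →ᵇ M))) (on k) (EQ g b t) ∅ q →ₗ[k]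
          Hr (tr (Q × (ℝ →ᵇ M))) (on k) (EQ g b s) ∅ q) x =
      (pullR (on k) mTh (empty_subset _) (mapsTo_empty _ _) q :
        Hr (tr (ℝ →ᵇ M)) (on k) (PF b (s + (ℓ' + 0) + (ℓ + 0))) ∅ q →ₗ[k]
          Hr (tr (Q × (ℝ →ᵇ M))) (on k) (EQ g b s) ∅ q)
        ((pullR (on k) mF (empty_subset _) (mapsTo_empty _ _) q :
        Hr (tr (Q × (ℝ →ᵇ M))) (on k) (EQ g b t) ∅ q →ₗ[k]
          Hr (tr (ℝ →ᵇ M)) (on k) (PF b (s + (ℓ' + 0) + (ℓ + 0))) ∅ q) x) := by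
    obtain ⟨z, hz, rfl⟩ := H.exists_mk x
    rfl
  have hz : ∀ y : Hr (tr (ℝ →ᵇ M)) (on k) (PF b (s + (ℓ' + 0) + (ℓ + 0))) ∅ q, y = 0 := by
    intro y
    obtain ⟨y, rfl⟩ := (absE k (PF b (s + (ℓ' + 0) + (ℓ + 0))) q).surjective y
    have := PF_subsingleton k b s2.le hq
    rw [Subsingleton.elim y 0]
    exact map_zero _
  have e1 := e0.trans ((congrArg (pullR (on k) mTh (empty_subset _) (mapsTo_empty _ _) q :
        Hr (tr (ℝ →ᵇ M)) (on k) (PF b (s + (ℓ' + 0) + (ℓ + 0))) ∅ q →ₗ[k]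
          Hr (tr (Q × (ℝ →ᵇ M))) (on k) (EQ g b s) ∅ q) (hz _)).trans (map_zero _))
  have H1 : Hp (EQ g b s) ∅ (EQ g b t) ∅ id
      (fPF f b ℓ T (s + (ℓ' + 0) + (ℓ + 0)) ∘ thE g b ℓ ℓ' T T' s) :=
    H550.hp_mono (hp_FThE hg hf hT hH hs) le_rfl le_rfl hsub le_rfl
  have mid : IsMap (tr (Q × (ℝ →ᵇ M))) (tr (Q × (ℝ →ᵇ M))) (EQ g b s) (EQ g b t) id :=
    IsMap.id_of_subset (EY_mono hst le_rfl)
  have e2 := LinearMap.congr_fun (H1.pullR_eq (k := k) (empty_subset _) mid (mapsTo_empty _ _)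
    (mF.comp mTh) (mapsTo_empty _ _) q) x
  rw [e1] at e2
  exact e2

end Geo

/-- **Acyclicity**, for homotopy equivalences. -/
theorem exists_eph {Q M : Type} [MetricSpace Q] [CompactSpace Q] [MetricSpace M] [CompactSpace M]
    (f : C(M, Q)) (g : C(Q, M)) (hgf : (g.comp f).Homotopic (ContinuousMap.id M))
    (hfg : (f.comp g).Homotopic (ContinuousMap.id Q)) {ρ : ℝ} (hρ : 0 < ρ)
    (hU : LS.UniqSeg M ρ) : ∃ K : ℝ, 0 ≤ K ∧ ∀ (k : Type) [Field k] (b : M) (q : ℕ), 1 ≤ q →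
      (pmX k (mono_EQ g b) q).Eph K := by
  -- the tracks of `id ~ g ∘ f`
  obtain ⟨F⟩ := hgf.symm
  have hF : Continuous fun p : M × ℝ => F (projIcc 0 1 zero_le_one p.2, p.1) :=
    F.continuous.comp ((continuous_projIcc.comp continuous_snd).prodMk continuous_fst)
  obtain ⟨ℓ, T, hT⟩ := exists_tk hρ hU (isCompact_univ (X := M)) (H := fun p : M × ℝ =>
    F (projIcc 0 1 zero_le_one p.2, p.1)) hF.continuousOn
  have e0 : (fun x => F (projIcc 0 1 zero_le_one ((x, (0:ℝ)) : M × ℝ).2, x)) = id := by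
    funext x
    show F (projIcc 0 1 zero_le_one 0, x) = x
    rw [projIcc_left]
    exact F.apply_zero x
  have e1 : (fun x => F (projIcc 0 1 zero_le_one ((x, (1:ℝ)) : M × ℝ).2, x)) =
      fun x => g (f x) := by
    funext x
    show F (projIcc 0 1 zero_le_one 1, x) = g (f x)
    rw [projIcc_right]
    exact F.apply_one x
  have hT' : Tk (univ : Set M) id (fun x => g (f x)) ℓ T := by
    rw [← e0, ← e1]
    exact hT
  -- the homotopy `id ~ f ∘ g`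
  obtain ⟨G⟩ := hfg.symm
  have hG : Continuous fun p : Q × ℝ => G (projIcc 0 1 zero_le_one p.2, p.1) :=
    G.continuous.comp ((continuous_projIcc.comp continuous_snd).prodMk continuous_fst)
  obtain ⟨ℓ', T', hH⟩ := exists_htk hρ hU g.continuous (u := fun y => f (g y)) hG
    (fun y => by
      show G (projIcc 0 1 zero_le_one 0, y) = y
      rw [projIcc_left]
      exact G.apply_zero y)
    (fun y => by
      show G (projIcc 0 1 zero_le_one 1, y) = f (g y)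
      rw [projIcc_right]
      exact G.apply_one y)
  have hn := hT'.nonneg
  have hn' := hH.tr.nonneg
  exact ⟨ℓ' + 2 * ℓ, by linarith, fun k _ b q hq =>
    eph_EQ g.continuous f.continuous hT' hH k b hq⟩

end Vale.Agent.P216.D133
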