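import Vale.Agent.P216.D133.W1A
import Vale.Agent.P216.H934D.Bridge

/-!
# P216-D, block [D2-OM]: the cohomology ring of `M` homotopy equivalent to `Q`
-/

set_option linter.all false

open Set Finsupp

namespace Vale.Agent.P216.D133

open Vale.Agent.P216.AS Vale.Agent.P216.PS Vale.Agent.P216.Sl Vale.Agent.P216.H901
open Vale.Agent.P216.H83 Vale.Agent.P216.H133C Vale.Agent.P216.H140 Vale.Agent.P216.MV337
open Vale.Agent.P216.N929 (Coc Fine one1)
open Vale.Agent.P216.C337 (smL_sub cocL_sub_dl)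
open Vale.Agent.P216.H934D (BaseK exL_add exL_smul exL_congr)

section Dep

variable {k : Type} [Field k] {Q : Type} [MetricSpace Q] [CompactSpace Q] {d h : ℕ}

/-- Exactness passes over a handle of another index. -/
theorem lstep (C : CellDec Q d h) {m j : ℕ} (hj : j ≤ h) (hm : m ≠ d * j) {F : List Q → k}
    (hF : CocL (C.L (j + 1)) m F) (h0 : ExL (C.L j) m F) : ExL (C.L (j + 1)) m F := by
  obtain ⟨g, hg0, ε, hε, hg⟩ := h0
  have h1 : CocL (C.L (j + 1)) m fun l => F l - dl g l := cocL_sub_dl hF g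
  have h2 : VanL (C.L j) (m + 1) fun l => F l - dl g l :=
    ⟨ε, hε, fun l hl hs => by
      show F l - dl g l = 0
      rw [hg l hl hs, sub_self]⟩
  have h3 := C313.cellRel_zero (k := k) C hj hm
    (clsR (tr Q) (on k) _ (show CocR (C.L (j + 1)) (C.L j) m _ from ⟨h1, h2⟩))
  obtain ⟨g', hg0', ε', hε', hg'⟩ := (clsR_eq_zero.1 h3).exL
  refine ⟨fun l => g l + g' l, fun h0 l => by
    show g l + g' l = 0
    rw [hg0 h0, hg0' h0, add_zero], ε', hε', fun l hl hs => ?_⟩
  rw [N929.dl_add_fun, ← hg' l hl hs]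
  ring

theorem lext (C : CellDec Q d h) {m j : ℕ} (hm : ∀ i, j ≤ i → i ≤ h → m ≠ d * i)
    {F : List Q → k} (hF : CocL (univ : Set Q) m F) (h0 : ExL (C.L j) m F) :
    ∀ i, j ≤ i → i ≤ h + 1 → ExL (C.L i) m F := by
  intro i hji
  induction i, hji using Nat.le_induction with
  | base => exact fun _ => h0
  | succ i hji ih =>
    intro hi
    exact lstep C (by omega) (hm i hji (by omega)) (hF.mono (subset_univ _)) (ih (by omega))

/-- Two cocycles of degree `d j` are dependent. -/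
theorem dep_univ (C : CellDec Q d h) (hd : 1 ≤ d) {j : ℕ} (hj : j ≤ h) {F F' : List Q → k}
    (hF : CocL (univ : Set Q) (d * j) F) (hF' : CocL (univ : Set Q) (d * j) F') :
    ∃ a a' : k, (a ≠ 0 ∨ a' ≠ 0) ∧ ExL (univ : Set Q) (d * j) fun l => a * F l + a' * F' l := by
  have hlt : ∀ i < j, d * j ≠ d * i := fun i hi hc => by
    have : d * (i + 1) ≤ d * j := Nat.mul_le_mul_left d hi
    rw [Nat.mul_add] at this
    omega
  have hrel : ∀ G : List Q → k, CocL (univ : Set Q) (d * j) G →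
      ∃ g : List Q → k, (d * j = 0 → ∀ l, g l = 0) ∧
        CocR (C.L (j + 1)) (C.L j) (d * j) fun l => G l - dl g l := by
    intro G hG
    obtain ⟨g, hg0, ε, hε, hg⟩ := lvan C j (by omega) hlt (hG.mono (subset_univ (C.L j)))
    exact ⟨g, hg0, cocL_sub_dl (hG.mono (subset_univ _)) g, ε, hε, fun l hl hs => by
      show G l - dl g l = 0
      rw [hg l hl hs, sub_self]⟩
  obtain ⟨g, hg0, hg⟩ := hrel F hF
  obtain ⟨g', hg0', hg'⟩ := hrel F' hF'
  obtain ⟨γ, -, hγ⟩ := C313.cellRel_line (M := Q) C k hj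
  obtain ⟨b, hb⟩ := hγ (clsR (tr Q) (on k) _ hg)
  obtain ⟨b', hb'⟩ := hγ (clsR (tr Q) (on k) _ hg')
  obtain ⟨a, a', hne, hz⟩ : ∃ a a' : k, (a ≠ 0 ∨ a' ≠ 0) ∧ a * b + a' * b' = 0 := by
    by_cases hb0 : b = 0
    · exact ⟨1, 0, Or.inl one_ne_zero, by rw [hb0]; ring⟩
    · exact ⟨b', -b, Or.inr (neg_ne_zero.2 hb0), by ring⟩
  refine ⟨a, a', hne, ?_⟩
  -- relative exactness
  have hsum : a • clsR (tr Q) (on k) _ hg + a' • clsR (tr Q) (on k) _ hg' = 0 := by
    rw [hb, hb', smul_smul, smul_smul, ← add_smul, hz, zero_smul]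
  rw [clsR_smul, clsR_smul, clsR_add, clsR_eq_zero] at hsum
  obtain ⟨u, hu0, ε, hε, hu⟩ := hsum.exL
  have hex : ExL (C.L (j + 1)) (d * j) fun l => a * F l + a' * F' l := by
    refine ⟨fun l => u l + (a * g l + a' * g' l), fun h0 l => by
      show u l + (a * g l + a' * g' l) = 0
      rw [hu0 h0, hg0 h0, hg0' h0]; ring, ε, hε, fun l hl hs => ?_⟩
    have h1 : a * (F l - dl g l) + a' * (F' l - dl g' l) = dl u l := hu l hl hs
    rw [N929.dl_add_fun, N929.dl_add_fun, N929.dl_smul_fun, N929.dl_smul_fun, ← h1]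
    ring
  have hco : CocL (univ : Set Q) (d * j) fun l => a * F l + a' * F' l := by
    obtain ⟨ε₁, hε₁, h1⟩ := hF
    obtain ⟨ε₂, hε₂, h2⟩ := hF'
    refine ⟨min ε₁ ε₂, lt_min hε₁ hε₂, fun l hl hs => ?_⟩
    rw [N929.dl_add_fun, N929.dl_smul_fun, N929.dl_smul_fun,
      h1 l hl (hs.mono le_rfl (min_le_left _ _)), h2 l hl (hs.mono le_rfl (min_le_right _ _))]
    ring
  have hfin := lext C (j := j + 1) (fun i hi hih hc => by
    have : d * (j + 1) ≤ d * i := Nat.mul_le_mul_left d hi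
    rw [Nat.mul_add] at this
    omega) hco hex (h + 1) (by omega) le_rfl
  rwa [C.L_top] at hfin

end Dep

section Pull

variable {k : Type} [Field k] {Y Z : Type} [MetricSpace Y] [CompactSpace Y] [MetricSpace Z]
  [CompactSpace Z]

/-- Pull back of exact cochains. -/
theorem exL_map (φ : C(Y, Z)) {m : ℕ} {F : List Z → k} (hF : ExL (univ : Set Z) m F) :
    ExL (univ : Set Y) m fun l => F (l.map φ) := by
  obtain ⟨u, hu0, ε, hε, hu⟩ := hF
  obtain ⟨δ, hδ, hc⟩ := (map_uc φ).uc ε hε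
  refine ⟨fun l => u (l.map φ), fun h0 l => hu0 h0 _, δ, hδ, fun l hl hs => ?_⟩
  rw [N929.dl_map u φ]
  refine hu _ (by rw [List.length_map, hl]) ⟨fun _ _ => mem_univ _, fun a ha b hb => ?_⟩
  obtain ⟨x, hx, rfl⟩ := List.mem_map.1 ha
  obtain ⟨y, hy, rfl⟩ := List.mem_map.1 hb
  exact hc x trivial y trivial (hs.2 x hx y hy)

theorem cocL_map (φ : C(Y, Z)) {m : ℕ} {F : List Z → k} (hF : CocL (univ : Set Z) m F) :
    CocL (univ : Set Y) m fun l => F (l.map φ) := by
  obtain ⟨ε, hε, hF⟩ := hF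
  obtain ⟨δ, hδ, h⟩ := coc_map φ (m := m) hε (fun l hl hs => hF l hl ⟨hs.1, hs.2⟩)
  exact ⟨δ, hδ, fun l hl hs => h l hl ⟨hs.1, hs.2⟩⟩

/-- If `φ` has a left inverse up to homotopy, `F` is exact as soon as its pull back is. -/
theorem exL_of_map (φ : C(Y, Z)) (ψ : C(Z, Y)) (hφ : (φ.comp ψ).Homotopic (ContinuousMap.id Z))
    {m : ℕ} {F : List Z → k} (hF : CocL (univ : Set Z) m F)
    (hex : ExL (univ : Set Y) m fun l => F (l.map φ)) : ExL (univ : Set Z) m F := by
  have h1 := exL_map ψ hex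
  have h2 := exL_htpy hφ hF
  refine exL_congr (exL_add h1 (exL_smul (-1) h2)) fun l _ => ?_
  have e1 : (l.map ψ).map φ = l.map (φ.comp ψ) := by
    rw [List.map_map]
    rfl
  have e2 : l.map (ContinuousMap.id Z) = l := by
    conv_rhs => rw [← List.map_id l]
    exact List.map_congr_left fun x _ => rfl
  rw [e1, e2]
  ring

end Pull

/-- **The ring of `Q`.** -/
theorem baseK_of_ring {Q : Type} [MetricSpace Q] [CompactSpace Q] {d h : ℕ} (C : CellDec Q d h)
    (hd : 1 ≤ d) (hR : RingOut Q C) (k : Type) [Field k] (h2 : (2 : k) ≠ 0) :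
    Nonempty (BaseK k Q d h) := by
  obtain ⟨ζ, hN, ⟨ε, hε, hζ⟩, hne'⟩ := hR k h2
  have hne : ∀ j ≤ h, ¬ ExL (univ : Set Q) (d * j) (pw ζ d j) := fun j hj hex =>
    hne' j hj (hex.mono (subset_univ _))
  exact ⟨{
    ξ := ζ
    ε := ε
    hε := hε
    nξ := hN
    cξ := hζ
    ne := hne
    line := fun j hj c hc => by
      obtain ⟨a, a', h0, hex⟩ := dep_univ C hd hj hc (pw_cocL hε hζ j)
      have ha : a ≠ 0 := by
        intro ha
        have ha' : a' ≠ 0 := h0.resolve_left fun h => h ha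
        refine hne j hj (exL_congr (exL_smul a'⁻¹ hex) fun l _ => ?_)
        rw [ha, zero_mul, zero_add, ← mul_assoc, inv_mul_cancel₀ ha', one_mul]
      refine ⟨-(a⁻¹ * a'), exL_congr (exL_smul a⁻¹ hex) fun l _ => ?_⟩
      rw [mul_add, ← mul_assoc, inv_mul_cancel₀ ha, one_mul]
      ring
    zero := fun q hq c hc => by
      have h1 := lvan C (h + 1) le_rfl (m := q) (fun i hi => hq i (by omega))
        (hc.mono (subset_univ (C.L (h + 1))))
      rwa [C.L_top] at h1 }⟩

/-- **The ring of `M` homotopy equivalent to `Q`.** -/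
theorem baseK_htpy {Q M : Type} [MetricSpace Q] [CompactSpace Q] [MetricSpace M] [CompactSpace M]
    {d h : ℕ} {k : Type} [Field k] (B : BaseK k Q d h) (f : C(M, Q)) (g : C(Q, M))
    (hgf : (g.comp f).Homotopic (ContinuousMap.id M))
    (hfg : (f.comp g).Homotopic (ContinuousMap.id Q)) : Nonempty (BaseK k M d h) := by
  obtain ⟨ε₁, hε₁, h1⟩ := coc_map f B.hε B.cξ
  have hpw : ∀ (j : ℕ) (l : List M), pw (fun l => B.ξ (l.map f)) d j l = pw B.ξ d j (l.map f) :=
    pw_map f B.ξ d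
  exact ⟨{
    ξ := fun l => B.ξ (l.map f)
    ε := ε₁
    hε := hε₁
    nξ := B.nξ.map f
    cξ := h1
    ne := fun j hj hex => by
      refine B.ne j hj (exL_of_map f g hfg (pw_cocL B.hε B.cξ j) ?_)
      exact exL_congr hex fun l _ => (hpw j l).symm
    line := fun j hj c hc => by
      obtain ⟨a, ha⟩ := B.line j hj _ (cocL_map g hc)
      refine ⟨a, ?_⟩
      have h3 := exL_map f ha
      have h4 := exL_htpy hgf hc
      refine exL_congr (exL_add h3 (exL_smul (-1) h4)) fun l _ => ?_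
      have e1 : (l.map f).map g = l.map (g.comp f) := by
        rw [List.map_map]
        rfl
      have e2 : l.map (ContinuousMap.id M) = l := by
        conv_rhs => rw [← List.map_id l]
        exact List.map_congr_left fun x _ => rfl
      rw [e1, e2, hpw j l]
      ring
    zero := fun q hq c hc => exL_of_map g f hgf hc (B.zero q hq _ (cocL_map g hc)) }⟩

end Vale.Agent.P216.D133
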