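import Vale.Agent.P216.C337.KSeq
import Vale.Agent.P216.MV337.Sys

/-!
# P216-D, block [D2-OM]: the sequences `κ j` for a given class

* `kSeq_of`: the sequence `KSeq` with a given `ξ`;
* `exL_htpy`: homotopic maps pull back cocycles to cohomologous cocycles;
* `exists_kSeq`: for `f : M → Q`, `g : Q → M`, `f ∘ g ~ id`, a class `ξ` on `M` and a sequence on
  `Q` with the class `ξ ∘ g`.
-/

set_option linter.all false

open Set Finsupp

namespace Vale.Agent.P216.D133

open Vale.Agent.P216.AS Vale.Agent.P216.PS Vale.Agent.P216.Sl Vale.Agent.P216.H901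
open Vale.Agent.P216.H83 Vale.Agent.P216.H133C Vale.Agent.P216.H140 Vale.Agent.P216.MV337
open Vale.Agent.P216.N929 (Coc Fine one1)
open Vale.Agent.P216.C337 (Good exists_step smL_sub one1_Nrm one1_cocL cocL_sub_dl cup_cocL)

section

variable {k : Type} [Field k] {M : Type} [MetricSpace M] [CompactSpace M] {d h : ℕ}

/-- **The sequence of a given class.** -/
theorem kSeq_of (C : CellDec M d h) (hd : 1 ≤ d) {ξ : List M → k} (hN : Nrm ξ) {ε : ℝ}
    (hε : 0 < ε) (hξ : Coc (univ : Set M) ε d ξ)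
    (hne : ∀ j ≤ h, ¬ ExL (C.L (j + 1)) (d * j) (pw ξ d j)) : ∃ S : KSeq k C, S.ξ = ξ := by
  choose F hFN hF using fun (j : ℕ) (κ : List M → k) => exists_step C hd hε hN hξ j κ
  let κ : ℕ → List M → k := fun j => Nat.rec (one1 k M)
    (fun j κ => fun l => N929.cup d ξ κ l - dl (F j κ) l) j
  let μ : ℕ → List M → k := fun j => Nat.casesOn j (fun _ => 0) fun j => F j (κ j)
  have κs : ∀ j, κ (j + 1) = fun l => N929.cup d ξ (κ j) l - dl (μ (j + 1)) l := fun j => rfl
  have hμ : ∀ j, Nrm (μ j) := by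
    intro j
    cases j with
    | zero => exact fun _ _ => rfl
    | succ j => exact hFN _ _
  have hg : ∀ j, Good C j (κ j) := by
    intro j
    induction j with
    | zero =>
      refine ⟨one1_Nrm, one1_cocL, fun _ => ?_⟩
      rw [C.L_zero]
      exact vanL_empty
    | succ j ih =>
      refine ⟨?_, ?_, fun hj => ?_⟩
      · rw [κs]
        exact Nrm.sub (N929.Nrm.cup d hN ih.n) (hμ (j + 1)).dl
      · rw [κs]
        have e : d + d * j = d * (j + 1) := by ring
        exact e ▸ cocL_sub_dl (cup_cocL hε hξ ih.c) _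
      · exact (hF j (κ j) ih (by omega)).2
  have hν : ∀ j, ∃ ν : List M → k, (j = 0 → ν = fun _ => 0) ∧ ∃ δ > 0, ∀ l, l.length = d * j + 1 →
      SmL (univ : Set M) δ l → κ j l = pw ξ d j l + dl ν l := by
    intro j
    induction j with
    | zero =>
      refine ⟨fun _ => 0, fun _ => rfl, 1, one_pos, fun l _ _ => ?_⟩
      rw [PS.dl_zero_fun, add_zero]
      rfl
    | succ j ih =>
      obtain ⟨ν, hν0, δ, hδ, hν⟩ := ih
      refine ⟨fun l => (-1) ^ d * N929.cup d ξ ν l + (-1) * μ (j + 1) l,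
        fun h => absurd h (Nat.succ_ne_zero j), min ε δ, lt_min hε hδ, fun l hl hs => ?_⟩
      have e : d * (j + 1) = d + d * j := by ring
      rw [κs, PS.dl_add, PS.dl_smul, PS.dl_smul]
      have h1 : N929.cup d ξ (κ j) l = ξ (l.take (d + 1)) * pw ξ d j (l.drop d) +
          ξ (l.take (d + 1)) * dl ν (l.drop d) := by
        change ξ _ * κ j _ = _
        rw [hν (l.drop d) (by rw [List.length_drop]; omega)
          ((smL_sub hs fun x hx => List.mem_of_mem_drop hx).mono le_rfl (min_le_right _ _)),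
          mul_add]
      have h2 : ξ (l.take (d + 1)) * dl ν (l.drop d) = (-1) ^ d * dl (N929.cup d ξ ν) l := by
        rcases Nat.eq_zero_or_pos j with h0 | hj
        · have e1 : ν = fun _ => 0 := hν0 h0
          have e2 : N929.cup d ξ ν = fun _ => 0 := by
            funext l
            change ξ _ * ν _ = 0
            rw [e1, mul_zero]
          rw [e1] at e2 ⊢
          rw [e2, PS.dl_zero_fun, PS.dl_zero_fun, mul_zero, mul_zero]
        · have h4 : d ≤ d * j := Nat.le_mul_of_pos_right d hj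
          have h5 : d + 2 ≤ l.length := by omega
          have h3 : dl ξ (l.take (d + 2)) = 0 :=
            hξ _ (by rw [List.length_take]; omega) ⟨fun _ _ => mem_univ _, fun x hx y hy =>
              (hs.2 x (List.mem_of_mem_take hx) y (List.mem_of_mem_take hy)).trans_le
                (min_le_left _ _)⟩
          rw [N929.dl_cup d ξ ν l h5, h3, zero_mul, zero_add, ← mul_assoc, ← mul_pow]
          norm_num
      change N929.cup d ξ (κ j) l - _ = ξ _ * pw ξ d j _ + _
      rw [h1, h2]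
      ring
  refine ⟨⟨ξ, κ, μ, ε, hε, hN, fun j => (hg j).n, hμ, hξ, rfl, κs, fun j => (hg j).c,
    fun j => (hg j).v, fun j hj => (hF j (κ j) (hg j) hj).1, fun j hj => ?_, fun j hj hex => ?_⟩,
    rfl⟩
  · exact (hF j (κ j) (hg j) hj).2
  · obtain ⟨g, hg0, δ₁, hδ₁, hgl⟩ := hex
    obtain ⟨ν, hν0, δ, hδ, hν⟩ := hν j
    refine hne j hj ⟨fun l => g l + (-1) * ν l, fun h0 l => ?_, min δ₁ δ, lt_min hδ₁ hδ,
      fun l hl hs => ?_⟩
    · have hj0 : j = 0 := by
        rcases Nat.mul_eq_zero.1 h0 with h | h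
        · omega
        · exact h
      change g l + (-1) * ν l = 0
      rw [hg0 h0 l, hν0 hj0]
      ring
    · rw [PS.dl_add, PS.dl_smul, ← hgl l hl (hs.mono le_rfl (min_le_left _ _)),
        hν l hl ((hs.mono le_rfl (min_le_right _ _)).mono (subset_univ _) le_rfl)]
      ring

end

section Htpy

variable {k : Type} [Field k] {Y Z : Type} [MetricSpace Y] [CompactSpace Y] [MetricSpace Z]
  [CompactSpace Z]

theorem map_uc (φ : C(Y, Z)) : IsMap (tr Y) (tr Z) (univ : Set Y) univ φ :=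
  map_of_cont isCompact_univ φ.continuous.continuousOn fun _ _ => mem_univ _

/-- Homotopic maps pull back a cocycle to cohomologous cocycles. -/
theorem exL_htpy {φ ψ : C(Y, Z)} (hφ : φ.Homotopic ψ) {m : ℕ} {F : List Z → k}
    (hF : CocL (univ : Set Z) m F) :
    ExL (univ : Set Y) m fun l => F (l.map φ) - F (l.map ψ) := by
  obtain ⟨H⟩ := hφ
  have hp : Hp (univ : Set Y) ∅ (univ : Set Z) ∅ φ ψ := by
    refine hp_of_cont isCompact_univ (F := fun p : ℝ × Y => H (projIcc 0 1 zero_le_one p.1, p.2))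
      ?_ (fun _ _ _ _ => mem_univ _) (fun _ _ _ h => h.elim) ?_ ?_
    · exact (H.continuous.comp ((continuous_projIcc.comp continuous_fst).prodMk
        continuous_snd)).continuousOn
    · intro x _
      show H (projIcc 0 1 zero_le_one 0, x) = φ x
      rw [projIcc_left]
      exact H.apply_zero x
    · intro x _
      show H (projIcc 0 1 zero_le_one 1, x) = ψ x
      rw [projIcc_right]
      exact H.apply_one x
  have e := LinearMap.congr_fun (hp.pullR_eq (k := k) (empty_subset _) (map_uc φ)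
    (mapsTo_empty _ _) (map_uc ψ) (mapsTo_empty _ _) m) (clsR (tr Z) (on k) F hF.toR)
  rw [pullR_clsR, pullR_clsR, clsR_eq_clsR] at e
  exact e.exL

/-- The pull-back of a fine cocycle. -/
theorem coc_map (φ : C(Y, Z)) {ε : ℝ} (hε : 0 < ε) {m : ℕ} {F : List Z → k}
    (hF : Coc (univ : Set Z) ε m F) :
    ∃ δ > 0, Coc (univ : Set Y) δ m fun l => F (l.map φ) := by
  obtain ⟨δ, hδ, hu⟩ := (map_uc φ).uc ε hε
  refine ⟨δ, hδ, fun l hl hs => ?_⟩
  rw [N929.dl_map F φ]
  refine hF _ (by rw [List.length_map, hl]) ⟨fun _ _ => mem_univ _, fun a ha b hb => ?_⟩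
  obtain ⟨x, hx, rfl⟩ := List.mem_map.1 ha
  obtain ⟨y, hy, rfl⟩ := List.mem_map.1 hb
  exact hu x trivial y trivial (hs.2 x hx y hy)

omit [MetricSpace Y] [CompactSpace Y] [MetricSpace Z] [CompactSpace Z] in
theorem pw_map (φ : Y → Z) (ξ : List Z → k) (d : ℕ) : ∀ (j : ℕ) (l : List Y),
    pw (fun l => ξ (l.map φ)) d j l = pw ξ d j (l.map φ)
  | 0, l => by
    show (if l.length = 1 then (1 : k) else 0) = if (l.map φ).length = 1 then 1 else 0
    rw [List.length_map]
  | j + 1, l => by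
    show ξ ((l.take (d + 1)).map φ) * pw (fun l => ξ (l.map φ)) d j (l.drop d) =
      ξ ((l.map φ).take (d + 1)) * pw ξ d j ((l.map φ).drop d)
    rw [pw_map φ ξ d j, List.map_take, List.map_drop]

omit [CompactSpace Z] in
theorem pw_cocL {d : ℕ} {ε : ℝ} (hε : 0 < ε) {ξ : List Z → k} (hξ : Coc (univ : Set Z) ε d ξ) :
    ∀ j, CocL (univ : Set Z) (d * j) (pw ξ d j)
  | 0 => one1_cocL
  | j + 1 => by
    have e : d + d * j = d * (j + 1) := by ring
    exact e ▸ cup_cocL hε hξ (pw_cocL hε hξ j)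

end Htpy

/-- **The class on `M` and the sequence on `Q`.** -/
theorem exists_kSeq {Q M : Type} [MetricSpace Q] [CompactSpace Q] [MetricSpace M] [CompactSpace M]
    {d h : ℕ} (C : CellDec Q d h) (hd : 1 ≤ d) (hR : RingOut Q C) (f : C(M, Q)) (g : C(Q, M))
    (hfg : (f.comp g).Homotopic (ContinuousMap.id Q)) (k : Type) [Field k] (h2 : (2 : k) ≠ 0) :
    ∃ (ξ : List M → k) (ε : ℝ), Nrm ξ ∧ 0 < ε ∧ Coc (univ : Set M) ε d ξ ∧
      ∃ S : KSeq k C, S.ξ = fun l => ξ (l.map g) := by
  obtain ⟨ζ, hN, ⟨ε, hε, hζ⟩, hne⟩ := hR k h2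
  obtain ⟨ε₁, hε₁, h1⟩ := coc_map f hε hζ
  obtain ⟨ε₂, hε₂, h3⟩ := coc_map g hε₁ h1
  refine ⟨fun l => ζ (l.map f), ε₁, hN.map f, hε₁, h1, ?_⟩
  refine kSeq_of C hd (ξ := fun l => (fun l : List M => ζ (l.map f)) (l.map g))
    ((hN.map f).map g) hε₂ h3 fun j hj hex => ?_
  refine hne j hj ?_
  have e1 : ExL (univ : Set Q) (d * j) fun l => pw ζ d j (l.map (f.comp g)) -
    pw ζ d j (l.map (ContinuousMap.id Q)) := exL_htpy hfg (pw_cocL hε hζ j)
  obtain ⟨s, hs0, δ, hδ, hs⟩ := e1
  obtain ⟨u, hu0, η, hη, hu⟩ := hex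
  refine ⟨fun l => u l + (-1) * s l, fun h0 l => by
    show u l + (-1) * s l = 0
    rw [hu0 h0, hs0 h0]; ring, min δ η, lt_min hδ hη, fun l hl hsm => ?_⟩
  have a1 : pw ζ d j (l.map (f.comp g)) - pw ζ d j (l.map (ContinuousMap.id Q)) = dl s l :=
    hs l hl (hsm.mono (subset_univ _) (min_le_left _ _))
  have a2 := hu l hl (hsm.mono le_rfl (min_le_right _ _))
  have a3 : l.map (ContinuousMap.id Q) = l := by
    conv_rhs => rw [← List.map_id l]
    exact List.map_congr_left fun x _ => rfl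
  have a4 : pw (fun l => (fun l : List M => ζ (l.map f)) (l.map g)) d j l =
      pw ζ d j (l.map (f.comp g)) := by
    rw [pw_map g (fun l : List M => ζ (l.map f)) d j l, pw_map f ζ d j, List.map_map]
    rfl
  rw [a3] at a1
  rw [a4] at a2
  rw [PS.dl_add, PS.dl_smul, ← a1, ← a2]
  ring

end Vale.Agent.P216.D133
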