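import Vale.Agent.P216.D133.Acyc
import Vale.Agent.P216.D133.KSeq
import Vale.Agent.P216.C313.EtaNe
import Vale.Agent.P216.H140.EtaInv

/-!
# P216-D, block [D2-OM]: the classes of the ladder over `Q`

`fAq S ξ N j = η ∪ κ j - (-1)^d μ (j + 1)` on the pairs `(y, w)`; `exists_hypQ`: the hypotheses
of the ladder over `Q` with one constant for all fields.
-/

set_option linter.all false

open Set BoundedContinuousFunction

namespace Vale.Agent.P216.D133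

open Vale.Agent.P216.AS Vale.Agent.P216.H901 Vale.Agent.P216.H83 Vale.Agent.P216.H550
open Vale.Agent.P216.H456 Vale.Agent.P216.MV337 Vale.Agent.P216.H133C Vale.Agent.P216.PS
open Vale.Agent.P216.H140 Vale.Agent.P216.H456C
open Vale.Agent.P216.Sl (IsPi Nrm CocL ExL)
open Vale.Agent.P216.N929 (Coc Fine one1)
open Vale.Agent.P216.C313 (EY EY_mono sml_sub zfam exR_congr exists_isPi)
open Vale.Agent.P216.C337 (TrY PY tw tw_mem)

/-- The properties of `η`. -/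
structure EtaM {k : Type} [Field k] {M : Type} [MetricSpace M] (d N : ℕ) (ε : ℝ)
    (ξ : List M → k) : Prop where
  nrm : Nrm (eta N ξ)
  dl : ∀ (b : M) (T : ℝ) (l : List (ℝ →ᵇ M)), l.length = d + 1 → Fine (PF b T) (ε / 4) l →
    Sl.dl (eta N ξ) l = (-1) ^ d * ξ (l.map evz)
  coc : ∀ (a b : M) (T : ℝ), Coc (P a b T) (ε / 4) (d - 1) (eta N ξ)
  front : EFront N ξ
  back : EBack N ξ

theorem etaM {k : Type} [Field k] {M : Type} [MetricSpace M] [CompactSpace M] {d N : ℕ} {ε : ℝ}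
    {ξ : List M → k} (hd : 2 ≤ d) (hε : 0 < ε) (hξ : Nrm ξ) (hc : Coc (univ : Set M) ε d ξ)
    (hN : 1 / ((N : ℝ) + 1) < ε / 4) : EtaM d N ε ξ := by
  obtain ⟨h1, h2, h3, h4, h5⟩ := H977C.etaOut k M d N ε ξ hd hε hξ hc hN
  exact ⟨h1, h2, h3, h4, h5⟩

section Cls

variable {k : Type} [Field k] {Q M : Type} [MetricSpace Q] [CompactSpace Q] [MetricSpace M]
  [CompactSpace M] {d h : ℕ} {C : CellDec Q d h} {g : Q → M}

/-- The cochain of `A j`. -/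
noncomputable def fAq (S : KSeq k C) (ξ : List M → k) (N j : ℕ) : List (Q × (ℝ →ᵇ M)) → k :=
  fun l => N929.cup (d - 1) (fun l => eta N ξ (l.map Prod.snd)) (fun l => S.κ j (l.map Prod.fst)) l -
    (-1) ^ d * S.μ (j + 1) (l.map Prod.fst)

theorem sml_fst {X : Set (Q × (ℝ →ᵇ M))} {L : Set Q} {ε : ℝ} {l : List (Q × (ℝ →ᵇ M))}
    (h : SmL X ε l) (hX : ∀ w ∈ X, w.1 ∈ L) : SmL L ε (l.map Prod.fst) := by
  refine ⟨fun y hy => ?_, fun y hy y' hy' => ?_⟩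
  · obtain ⟨x, hx, rfl⟩ := List.mem_map.1 hy
    exact hX x (h.1 x hx)
  · obtain ⟨x, hx, rfl⟩ := List.mem_map.1 hy
    obtain ⟨x', hx', rfl⟩ := List.mem_map.1 hy'
    exact (le_max_left _ _).trans_lt (h.2 x hx x' hx')

theorem EQ_zero {b : M} {t : ℝ} {q : Q × (ℝ →ᵇ M)} (hq : q ∈ EQ g b t) : q.2 0 = g q.1 :=
  eq_left hq.2 le_rfl

theorem EQ_PF {b : M} {t : ℝ} {q : Q × (ℝ →ᵇ M)} (hq : q ∈ EQ g b t) : q.2 ∈ PF b t := by
  show q.2 ∈ P (q.2 0) b t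
  rw [EQ_zero hq]
  exact hq.2

theorem fine_snd {b : M} {t ε : ℝ} {l : List (Q × (ℝ →ᵇ M))} (h : SmL (EQ g b t) ε l) :
    Fine (PF b t) ε (l.map Prod.snd) := by
  refine ⟨fun y hy => ?_, fun y hy y' hy' => ?_⟩
  · obtain ⟨x, hx, rfl⟩ := List.mem_map.1 hy
    exact EQ_PF (h.1 x hx)
  · obtain ⟨x, hx, rfl⟩ := List.mem_map.1 hy
    obtain ⟨x', hx', rfl⟩ := List.mem_map.1 hy'
    exact (le_max_right _ _).trans_lt (h.2 x hx x' hx')

theorem map_evz_snd {b : M} {t : ℝ} {l : List (Q × (ℝ →ᵇ M))} (h : ∀ q ∈ l, q ∈ EQ g b t) :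
    (l.map Prod.snd).map evz = (l.map Prod.fst).map g := by
  rw [List.map_map, List.map_map]
  exact List.map_congr_left fun q hq => EQ_zero (h q hq)

variable {S : KSeq k C} {ξ : List M → k} {ε₀ : ℝ} {N : ℕ}

/-- The coboundary of `η` on the pairs. -/
theorem dl_etaS (hE : EtaM d N ε₀ ξ) (hS : S.ξ = fun l => ξ (l.map g)) {b : M} {t : ℝ}
    {l : List (Q × (ℝ →ᵇ M))} (hl : l.length = d + 1) (hs : SmL (EQ g b t) (ε₀ / 4) l) :
    Sl.dl (fun l => eta N ξ (l.map Prod.snd)) l = (-1) ^ d * S.ξ (l.map Prod.fst) := by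
  rw [N929.dl_map (eta N ξ) Prod.snd, hE.dl b t _ (by rw [List.length_map, hl]) (fine_snd hs),
    map_evz_snd hs.1, hS]

/-- `dl (fAq S ξ N j) = (-1)^d κ (j + 1)`. -/
theorem dl_fAq (hE : EtaM d N ε₀ ξ) (hε₀ : 0 < ε₀) (hS : S.ξ = fun l => ξ (l.map g)) (hd : 2 ≤ d)
    {j n : ℕ} (hn : n + 1 = d * (j + 1)) (b : M) (t : ℝ) :
    ∃ ε > 0, ∀ l, l.length = n + 2 → SmL (EQ g b t) ε l →
      Sl.dl (fAq S ξ N j) l = (-1) ^ d * S.κ (j + 1) (l.map Prod.fst) := by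
  obtain ⟨ε, hε, hκ⟩ := S.cκ j
  have hdj : d * (j + 1) = d * j + d := by ring
  refine ⟨min (ε₀ / 4) ε, lt_min (by positivity) hε, fun l hl hs => ?_⟩
  have e : fAq S ξ N j = fun l => N929.cup (d - 1) (fun l => eta N ξ (l.map Prod.snd))
      (fun l => S.κ j (l.map Prod.fst)) l + (-(-1) ^ d) * S.μ (j + 1) (l.map Prod.fst) := by
    funext l
    unfold fAq
    ring
  have h1 : Sl.dl (fun l : List (Q × (ℝ →ᵇ M)) => S.κ j (l.map Prod.fst)) (l.drop (d - 1)) = 0 := by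
    rw [N929.dl_map (S.κ j) Prod.fst]
    refine hκ _ (by rw [List.length_map, List.length_drop]; omega) ?_
    exact sml_fst ((sml_sub hs fun x hx => List.mem_of_mem_drop hx).mono le_rfl (min_le_right _ _))
      fun _ _ => mem_univ _
  have h2 : Sl.dl (fun l => eta N ξ (l.map Prod.snd)) (l.take (d + 1)) =
      (-1) ^ d * S.ξ ((l.take (d + 1)).map Prod.fst) := by
    refine dl_etaS hE hS (b := b) (t := t) (by rw [List.length_take]; omega) ?_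
    exact (sml_sub hs fun x hx => List.mem_of_mem_take hx).mono le_rfl (min_le_left _ _)
  have e1 : d - 1 + 1 = d := by omega
  have e2 : d - 1 + 2 = d + 1 := by omega
  rw [e, N929.dl_add_fun, N929.dl_smul_fun, N929.dl_cup (d - 1) _ _ l (by omega), h1,
    N929.dl_map (S.μ (j + 1)) Prod.fst, mul_zero, mul_zero, add_zero, e2, e1, h2, S.κs]
  change _ = (-1) ^ d * (S.ξ ((l.map Prod.fst).take (d + 1)) * S.κ j ((l.map Prod.fst).drop d) - _)
  rw [← List.map_take, ← List.map_drop]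
  ring

/-- `fAq S ξ N j` vanishes on the small lists over `L j`. -/
theorem van_fAq (hd : 2 ≤ d) {j n : ℕ} (hj : j ≤ h) (hn : n + 1 = d * (j + 1))
    {X : Set (Q × (ℝ →ᵇ M))} (hX : ∀ w ∈ X, w.1 ∈ C.L j) : VanL X (n + 1) (fAq S ξ N j) := by
  obtain ⟨ε, hε, hκ⟩ := S.vκ j hj
  obtain ⟨ε', hε', hμ⟩ := S.vμ j hj
  have hdj : d * (j + 1) = d * j + d := by ring
  refine ⟨min ε ε', lt_min hε hε', fun l hl hs => ?_⟩
  have h1 : S.κ j ((l.drop (d - 1)).map Prod.fst) = 0 := by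
    refine hκ _ (by rw [List.length_map, List.length_drop]; omega) ?_
    exact sml_fst ((sml_sub hs fun x hx => List.mem_of_mem_drop hx).mono le_rfl (min_le_left _ _)) hX
  have h2 : S.μ (j + 1) (l.map Prod.fst) = 0 :=
    hμ _ (by rw [List.length_map]; omega) ((sml_fst hs hX).mono le_rfl (min_le_right _ _))
  change eta N ξ ((l.take (d - 1 + 1)).map Prod.snd) * S.κ j ((l.drop (d - 1)).map Prod.fst) -
    (-1) ^ d * S.μ (j + 1) (l.map Prod.fst) = 0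
  rw [h1, h2, mul_zero, mul_zero, sub_zero]

/-- `fAq S ξ N j` is a cocycle over `L (j + 1)`. -/
theorem coc_fAq (hE : EtaM d N ε₀ ξ) (hε₀ : 0 < ε₀) (hS : S.ξ = fun l => ξ (l.map g)) (hd : 2 ≤ d)
    {j n : ℕ} (hj : j ≤ h) (hn : n + 1 = d * (j + 1))
    {b : M} {t : ℝ} {X : Set (Q × (ℝ →ᵇ M))} (hX' : X ⊆ EQ g b t)
    (hX : ∀ w ∈ X, w.1 ∈ C.L (j + 1)) : CocL X n (fAq S ξ N j) := by
  obtain ⟨ε, hε, h1⟩ := dl_fAq hE hε₀ hS hd hn b t
  obtain ⟨ε', hε', h2⟩ := S.vs j hj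
  refine ⟨min ε ε', lt_min hε hε', fun l hl hs => ?_⟩
  rw [h1 l hl (hs.mono hX' (min_le_left _ _)), h2 _ (by rw [List.length_map]; omega)
    ((sml_fst hs hX).mono le_rfl (min_le_right _ _)), mul_zero]

/-- The relative cocycle. -/
theorem cocR_fAq (hE : EtaM d N ε₀ ξ) (hε₀ : 0 < ε₀) (hS : S.ξ = fun l => ξ (l.map g)) (hd : 2 ≤ d)
    {j n : ℕ} (hj : j ≤ h) (hn : n + 1 = d * (j + 1))
    {b : M} {t : ℝ} {X A : Set (Q × (ℝ →ᵇ M))} (hX' : X ⊆ EQ g b t)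
    (hX : ∀ w ∈ X, w.1 ∈ C.L (j + 1)) (hA : ∀ w ∈ A, w.1 ∈ C.L j) : CocR X A n (fAq S ξ N j) :=
  ⟨coc_fAq hE hε₀ hS hd hj hn hX' hX, van_fAq hd hj hn hA⟩

/-! ### Families -/

/-- The family `A j`. -/
noncomputable def famAq (hE : EtaM d N ε₀ ξ) (hε₀ : 0 < ε₀) (hS : S.ξ = fun l => ξ (l.map g))
    (hd : 2 ≤ d) (b : M) {j n : ℕ} (hj : j ≤ h)
    (hn : n + 1 = d * (j + 1)) : ((ladQ C g b k).H j n).Fam where
  z t _ := clsR (tr (Q × (ℝ →ᵇ M))) (on k) (X := Xq C g b (j + 1) t) (fAq S ξ N j)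
    (coc_fAq hE hε₀ hS hd hj hn (fun w hw => hw.1) (fun w hw => hw.2)).toR
  comp s t hs hst := rfl

/-- The family `B j`. -/
noncomputable def famBq (hE : EtaM d N ε₀ ξ) (hε₀ : 0 < ε₀) (hS : S.ξ = fun l => ξ (l.map g))
    (hd : 2 ≤ d) (b : M) {j n : ℕ} (hj : j + 1 ≤ h)
    (hn : n + 1 = d * (j + 1 + 1)) : ((ladQ C g b k).R j n).Fam where
  z t _ := clsR (tr (Q × (ℝ →ᵇ M))) (on k) (X := Xq C g b (j + 2) t) (A := Xq C g b (j + 1) t)
    (fAq S ξ N (j + 1)) (cocR_fAq hE hε₀ hS hd hj hn (fun w hw => hw.1) (fun w hw => hw.2)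
      fun w hw => hw.2)
  comp s t hs hst := rfl

theorem const_mem' (b : M) : BoundedContinuousFunction.const ℝ b ∈ P b b (0 : ℝ) :=
  ⟨fun u v => by simp, fun u _ => rfl, fun u _ => rfl⟩

/-- The section over a handle. -/
noncomputable def secQ (b : M) (m : ℝ) (T : Q → ℝ → M) (x : Q) : Q × (ℝ →ᵇ M) :=
  tw m 0 (C337.rv m T) (fun _ _ => b) (x, BoundedContinuousFunction.const ℝ b)

theorem secQ_mem {D : Set Q} {b : M} {m : ℝ} {T : Q → ℝ → M} (hT : TrY D g (fun _ => b) m T)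
    {x : Q} (hx : x ∈ D) {t : ℝ} (ht : m ≤ t) : secQ b m T x ∈ EQ g b t := by
  have h := tw_mem (A := (univ : Set Q)) (t := 0)
    (q := ((x, BoundedContinuousFunction.const ℝ b) : Q × (ℝ →ᵇ M))) hT.rv_
    (TrY.const_ (L := D) (f := fun _ => b) continuousOn_const) le_rfl (mem_univ _)
    ⟨hx, const_mem' b⟩
  exact EY_mono (by linarith) le_rfl h

theorem secQ_map (hg : Continuous g) {b : M} {m : ℝ} {T : Q → ℝ → M} {j : ℕ}
    (hT : TrY (C.D j) g (fun _ => b) m T) {t : ℝ} (ht : m ≤ t) :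
    IsMap (tr Q) (tr (Q × (ℝ →ᵇ M))) (C.D j) (Xq C g b (j + 1) t) (secQ b m T) := by
  refine map_of_cont (C.closed j).isCompact ?_ fun x hx => ⟨secQ_mem hT hx ht, ?_⟩
  · have h1 := C337.continuousOn_tw (t := 0) hT.rv_
      (TrY.const_ (L := C.D j) (f := fun _ => b) continuousOn_const) le_rfl
    exact h1.comp (f := fun x : Q => ((x, BoundedContinuousFunction.const ℝ b) : Q × (ℝ →ᵇ M)))
      (by fun_prop) fun x hx => ⟨hx, const_mem' b⟩
  · show x ∈ C.L (j + 1)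
    rw [C.L_succ]
    exact Or.inr hx

omit [CompactSpace Q] in
theorem map_fst_sec {b : M} {m : ℝ} {T : Q → ℝ → M} (l : List Q) :
    (l.map (secQ b m T)).map Prod.fst = l := by
  rw [List.map_map]
  conv_rhs => rw [← List.map_id l]
  exact List.map_congr_left fun x _ => rfl

/-- **[K]** -/
theorem K_neq (hg : Continuous g) (hE : EtaM d N ε₀ ξ) (hε₀ : 0 < ε₀)
    (hS : S.ξ = fun l => ξ (l.map g)) (h2 : (2 : k) ≠ 0) (hd : 2 ≤ d) {b : M} {m : ℝ} {j n : ℕ}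
    (hj : j + 1 ≤ h) (hn : n + 1 = d * (j + 1)) {T : Q → ℝ → M}
    (hT : TrY (C.D (j + 1)) g (fun _ => b) m T) {t : ℝ} (ht : 0 < t) (hmt : m ≤ t) :
    (ladQ C g b k).δ j n t ht ((famAq hE hε₀ hS hd b (by omega : j ≤ h) hn).z t ht) ≠ 0 := by
  intro h0
  have hc := coc_fAq (C := C) (X := Xq C g b (j + 1) t) hE hε₀ hS hd (by omega : j ≤ h) hn
    (fun w hw => hw.1) (fun w hw => hw.2)
  have e1 : lesD k (Xq C g b (j + 2) t) (Xq C g b (j + 1) t) n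
      (clsR (tr (Q × (ℝ →ᵇ M))) (on k) (fAq S ξ N j) hc.toR) = 0 := h0
  rw [lesD_clsR] at e1
  -- pull back by the section
  have hs := secQ_map (C := C) hg hT hmt
  have hDA : MapsTo (secQ b m T) (C.D (j + 1) ∩ C.L (j + 1)) (Xq C g b (j + 1) t) := fun x hx =>
    ⟨secQ_mem hT hx.1 hmt, hx.2⟩
  have e2 := congrArg (pullR (on k) hs inter_subset_left hDA (n + 1)) e1
  rw [pullR_clsR, map_zero, clsR_eq_zero] at e2
  -- the cochain
  obtain ⟨ε, hε, h3⟩ := dl_fAq (C := C) hE hε₀ hS hd hn b t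
  obtain ⟨δ, hδ, h4⟩ := hs.uc ε hε
  have e3 : ExR (C.D (j + 1)) (C.D (j + 1) ∩ C.L (j + 1)) (n + 1) (S.κ (j + 1)) := by
    refine exR_congr e2 (c := (-1) ^ d) (pow_ne_zero _ (neg_ne_zero.2 one_ne_zero)) ⟨δ, hδ,
      fun l hl hsm => ?_⟩
    rw [h3 _ (by rw [List.length_map, hl]) ?_, map_fst_sec]
    refine ⟨fun y hy => ?_, fun y hy y' hy' => ?_⟩
    · obtain ⟨x, hx, rfl⟩ := List.mem_map.1 hy
      exact secQ_mem hT (hsm.1 x hx) hmt
    · obtain ⟨x, hx, rfl⟩ := List.mem_map.1 hy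
      obtain ⟨x', hx', rfl⟩ := List.mem_map.1 hy'
      exact h4 x (hsm.1 x hx) x' (hsm.1 x' hx') (hsm.2 x hx x' hx')
  have e4 : CocR (C.L (j + 1 + 1)) (C.L (j + 1)) (n + 1) (S.κ (j + 1)) := by
    rw [hn]
    exact ⟨(S.cκ (j + 1)).mono (subset_univ _), S.vκ (j + 1) hj⟩
  have e5 := (C337.excL Q d h C k h2 (j + 1) hj (n + 1) _ e4 e3).exL
  rw [hn] at e5
  exact S.ne (j + 1) hj e5

/-- **The instance.** -/
noncomputable def hypQ (hg : Continuous g) (hE : EtaM d N ε₀ ξ) (hε₀ : 0 < ε₀)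
    (hS : S.ξ = fun l => ξ (l.map g)) (h2 : (2 : k) ≠ 0) {e : ℕ} (he : 1 ≤ e)
    (hde : d = e + 1) {b : M} {m K : ℝ} (hG : (ladQ C g b k).HypG h e K) (hmK : m ≤ K)
    (hT : ∀ j, j ≤ h → ∃ T, TrY (C.D j) g (fun _ => b) m T) : (ladQ C g b k).Hyp h e K where
  toHypG := hG
  A j := if hj : j ≤ h then famAq (n := j * (e + 1) + e) hE hε₀ hS (by omega) b hj
      (by rw [hde]; ring)
    else zfam _
  B j := if hj : j + 1 ≤ h then famBq (n := (j + 1) * (e + 1) + e) hE hε₀ hS (by omega) b hj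
    (by rw [hde]; ring) else zfam _
  αB j t ht hj := by
    rw [dif_pos (show j + 1 ≤ h by omega), dif_pos (show j + 1 ≤ h by omega)]
    rfl
  K j t ht hj hKt := by
    rw [dif_pos (show j ≤ h by omega)]
    obtain ⟨T, hT⟩ := hT (j + 1) (by omega)
    exact K_neq hg hE hε₀ hS h2 (by omega) (by omega) _ hT ht (hmK.trans hKt)

theorem hypQ_A0 (hg : Continuous g) (hE : EtaM d N ε₀ ξ) (hε₀ : 0 < ε₀)
    (hS : S.ξ = fun l => ξ (l.map g)) (h2 : (2 : k) ≠ 0) {e : ℕ} (he : 1 ≤ e)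
    (hde : d = e + 1) {b : M} {m K : ℝ} (hG : (ladQ C g b k).HypG h e K) (hmK : m ≤ K)
    (hT : ∀ j, j ≤ h → ∃ T, TrY (C.D j) g (fun _ => b) m T)
    (hn : 0 * (e + 1) + e + 1 = d * (0 + 1)) :
    (hypQ hg hE hε₀ hS h2 he hde hG hmK hT).A 0 =
      famAq (n := 0 * (e + 1) + e) hE hε₀ hS (by omega) b (Nat.zero_le h) hn := by
  unfold hypQ
  simp only [Nat.zero_le, dif_pos]

end Cls

/-! ### Tracks -/

section Tr

variable {Q M : Type} [MetricSpace Q] [CompactSpace Q] [MetricSpace M] [CompactSpace M]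
  {d h : ℕ} {g : Q → M}

/-- Tracks over the handles, of a natural time, to all end points. -/
theorem exists_trNatQ [PathConnectedSpace M] [PathConnectedSpace Q] (C : CellDec Q d h)
    (hg : Continuous g) {ρ D : ℝ} (hρ : 0 < ρ) (hU : LS.UniqSeg M ρ) (hD : IsPi M D) :
    ∃ m : ℕ, ∀ (a : M) (j : ℕ), j ≤ h → ∃ T, TrY (C.D j) g (fun _ => a) (m : ℝ) T := by
  obtain ⟨x₀⟩ : Nonempty M := inferInstance
  obtain ⟨ℓ, h0, hT⟩ := exists_trYD C hg x₀ hρ hU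
  refine ⟨⌈ℓ + D⌉₊, fun a j hj => ?_⟩
  obtain ⟨T, hT⟩ := hT j hj
  obtain ⟨v, hv⟩ := hD.ne x₀ a
  have h2 : TrY (C.D j) (fun _ => x₀) (fun _ => a) D (fun _ => v) :=
    ⟨hD.nonneg, fun _ _ => hv.1, fun _ _ => hv.2.1, fun _ _ => hv.2.2,
      (v.continuous.comp continuous_snd).continuousOn⟩
  exact ⟨_, (hT.trans h2).le (Nat.le_ceil _)⟩

/-- **The hypotheses of the ladder over `Q`**, with one constant for all fields. -/
theorem exists_hypQ [SimplyConnectedSpace M] [PathConnectedSpace Q] (C : CellDec Q d h)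
    (hd : 2 ≤ d) (f : C(M, Q)) (g : C(Q, M)) (hgf : (g.comp f).Homotopic (ContinuousMap.id M))
    (hfg : (f.comp g).Homotopic (ContinuousMap.id Q)) {ρ : ℝ} (hρ : 0 < ρ)
    (hU : LS.UniqSeg M ρ) :
    ∃ (K : ℝ) (m : ℕ), 0 < K ∧ (m : ℝ) ≤ K ∧
      (∀ (a : M) (j : ℕ), j ≤ h → ∃ T, TrY (C.D j) g (fun _ => a) (m : ℝ) T) ∧
      ∀ (k : Type) [Field k], (2 : k) ≠ 0 → ∀ (S : KSeq k C) (ξ : List M → k) (ε₀ : ℝ) (N : ℕ),
        0 < ε₀ → EtaM d N ε₀ ξ → (S.ξ = fun l => ξ (l.map g)) → ∀ b : M,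
        ∃ Y : (ladQ C g b k).Hyp h (d - 1) K,
        ∀ t ht (hc : CocR (Xq C g b 1 t) ∅ (0 * (d - 1 + 1) + (d - 1)) (fAq S ξ N 0)),
          (Y.A 0).z t ht = clsR (tr (Q × (ℝ →ᵇ M))) (on k) (fAq S ξ N 0) hc := by
  obtain ⟨D, hD⟩ := exists_isPi hρ hU
  obtain ⟨m, hT⟩ := exists_trNatQ C g.continuous hρ hU hD
  obtain ⟨K₀, hK₀, hac⟩ := exists_eph f g hgf hfg hρ hU
  have hD0 := hD.nonneg
  have hm : (0 : ℝ) ≤ m := Nat.cast_nonneg m
  refine ⟨D + 4 * m + K₀ + 1, m, by positivity, by linarith, hT,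
    fun k _ h2 S ξ ε₀ N hε₀ hE hS b => ?_⟩
  have hde : d = d - 1 + 1 := by omega
  have hG : (ladQ C g b k).HypG h (d - 1) (D + 4 * m + K₀ + 1) :=
    ladGq (C := C) (a := b) (b := b) (e := d - 1) g.continuous h2 hm hD (fun j hj =>
      (show Nonempty (TrivQ C g b b m j) from by
        obtain ⟨T, hT⟩ := hT b j hj
        exact ⟨cellEY (C.cellL hj) (C.closed j) inter_subset_left g.continuous hT⟩).some)
      (by omega) hde (by linarith) fun q hq => (hac k b q hq).mono (by linarith)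
  refine ⟨hypQ g.continuous hE hε₀ hS h2 (by omega) hde hG (by linarith)
    (fun j hj => hT b j hj), fun t ht hc => ?_⟩
  rw [hypQ_A0 g.continuous hE hε₀ hS h2 (by omega) hde hG _ _ (by omega)]
  rfl

end Tr

end Vale.Agent.P216.D133
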