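import Vale.Agent.P216.H977C.Eta
import Vale.Agent.P216.H977C.Capf
import Vale.Agent.P216.H140.RCls
import Vale.Agent.P216.H754B.Rev
import Vale.Agent.P216.H456.PCon
import Vale.Agent.P216.H83.Les

/-!
# P216-D, block [D2-OM]: the class `η` on the reversed paths

* `fib_zero_fst`: fibre integrals of cochains of the base are zero;
* `dl_eta_gen`: the coboundary of `η` on paths with both ends free;
* `eta_split`: additivity with a varying junction;
* `exists_theta`: on the paths with end `q` and free start, `η(w⁻¹) = - η(w) + dl θ`;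
* `beta`, `dl_beta`, `eta_cut`: the segment to `p`.
-/

set_option linter.all false

open Finsupp Set BoundedContinuousFunction

namespace Vale.Agent.P216.D133

open Vale.Agent.P216.Sl Vale.Agent.P216.PS Vale.Agent.P216.N929
open Vale.Agent.P216.H977C
open Vale.Agent.P216.H140 (eta evw)
open Vale.Agent.P216.H456 (PF isCompact_PF)
open Vale.Agent.P216.MV337 (evz)
open Vale.Agent.P216.H754B (rv rv_apply lip_rv dist_rv_le)

section Fst

variable {k : Type} [Field k] {α β γ : Type}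

theorem chg_unit : ∀ l : List Unit, chg l = 0
  | [] => by simp
  | [_] => by simp
  | a :: b :: l => by
    rw [Subsingleton.elim a b, chg_eq]
    exact chg_unit (b :: l)

/-- The lists of a lattice path product: changes of the first coordinate. -/
theorem sh_fst_mem {P : List α → Prop} {Q : List β → Prop} {c : Ch k α} {c' : Ch k β}
    (hc : c ∈ Sp k P) (hc' : c' ∈ Sp k Q) : sh c c' ∈ Sp k (fun L => ∃ s t, P s ∧ Q t ∧ Gr s t L ∧
      chg (L.map Prod.fst) ≤ chg s) := by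
  refine Sp_mono ?_ (sh_chg_mem' (k := k) (id : α → α) (fun _ : β => ()) hc hc')
  rintro L ⟨s, t, hs, ht, hG, h⟩
  refine ⟨s, t, hs, ht, hG, ?_⟩
  rw [chg_unit, List.map_id, add_zero] at h
  have e : L.map Prod.fst = (L.map (Prod.map (id : α → α) (fun _ : β => ()))).map Prod.fst := by
    rw [List.map_map]
    rfl
  rw [e]
  exact (chg_map _ _).trans h

/-- Fibre integrals of cochains of the base are zero. -/
theorem fib_zero_fst {Q : List β → Prop} {u : Ch k β} (hu : u ∈ Sp k Q)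
    (hQ : ∀ t, Q t → 2 ≤ t.length) {F : List (α × β) → k} {ω : List γ → k} (hω : Nrm ω)
    {φ : α → γ} {l : List α} (hl : l ≠ [])
    (hF : ∀ t, Q t → ∀ L, Gr l t L → F L = ω ((L.map Prod.fst).map φ)) :
    N929.fib u F l = 0 := by
  rw [N929.fib]
  refine ev_zero_of (fun L hL => ?_)
    (sh_fst_mem (P := fun s => s = l) (single_mem (P := fun s => s = l) rfl (1 : k)) hu)
  obtain ⟨s, t, rfl, ht, hG, hch⟩ := hL
  rw [hF t ht L hG]
  refine Nrm_zero hω ?_
  have h1 := hG.1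
  have h2 := hQ t ht
  have h3 := chg_map φ (L.map Prod.fst)
  have h4 := chg_le_length s
  have h5 := List.length_pos_iff.2 hl
  rw [List.length_map, List.length_map]
  omega

end Fst

section

variable {k : Type} [Field k] {M : Type} [MetricSpace M]

/-- Times after the end do not contribute, variable ends. -/
theorem eta_eq' (N : ℕ) {ξ : List M → k} (hξ : Nrm ξ) {T : ℝ} {N' : ℕ}
    (hN : T ≤ N' * (1 / ((N : ℝ) + 1))) {l : List (ℝ →ᵇ M)} (hl : l ≠ [])
    (h : ∀ w ∈ l, ∀ u, T ≤ u → w u = w T) :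
    eta N ξ l = N929.fib (mesh k (1 / ((N : ℝ) + 1)) N') (fun L => ξ (L.map evw)) l := by
  have hδ0 : (0 : ℝ) < 1 / ((N : ℝ) + 1) := by positivity
  refine fibI_eq fun j hj => ?_
  refine fib_zero_fst (edge_mem' _ j) (fun t ht => by rw [ht]; exact le_rfl) hξ
    (φ := fun w : ℝ →ᵇ M => w T) hl ?_
  rintro t rfl L hL
  rw [List.map_map]
  congr 1
  refine List.map_congr_left fun p hp => ?_
  obtain ⟨h1, h2, h3⟩ := gr_times hδ0 hL hp
  have hT : T ≤ p.2 := by
    have hjN : (N' : ℝ) * (1 / ((N : ℝ) + 1)) ≤ j * (1 / ((N : ℝ) + 1)) :=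
      mul_le_mul_of_nonneg_right (by exact_mod_cast hj) hδ0.le
    linarith
  exact h p.1 h1 p.2 hT

/-- The coboundary of `eta`, both ends free. -/
theorem dl_eta_gen (N : ℕ) {ξ : List M → k} (hξ : Nrm ξ) {e : ℕ} {εξ ε : ℝ}
    (hc : Coc (univ : Set M) εξ (e + 1) ξ) (h2 : 2 * ε ≤ εξ)
    (hN : 1 / ((N : ℝ) + 1) < ε) {T : ℕ} {l : List (ℝ →ᵇ M)} (hl : l.length = e + 2)
    (hL : ∀ w ∈ l, Lip (w : ℝ → M)) (hf : ∀ w ∈ l, ∀ w' ∈ l, dist w w' < ε)
    (hT : ∀ w ∈ l, ∀ u, (T : ℝ) ≤ u → w u = w T) :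
    dl (eta N ξ) l = (-1) ^ (e + 1) * (ξ (l.map evz) - ξ (l.map fun w => w T)) := by
  have hδ0 : (0 : ℝ) < 1 / ((N : ℝ) + 1) := by positivity
  have hN' : ((T * (N + 1) : ℕ) : ℝ) * (1 / ((N : ℝ) + 1)) = T := int_mul_mesh N T
  have hne : l ≠ [] := by rintro rfl; simp at hl
  rw [N929.dl_congr (g := N929.fib (mesh k (1 / ((N : ℝ) + 1)) (T * (N + 1)))
    fun L => ξ (L.map evw))
    (fun l' h1 h2 => eta_eq' N hξ hN'.ge (by rintro rfl; simp at h1; omega)
      fun w hw => hT w (h2 w hw))]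
  rw [N929.dl_fib (mesh_Ln _ _) _ hne, N929.bd_mesh, map_sub, map_sub, ev_sh_point _ hne,
    ev_sh_point _ hne, hN']
  have e1 : N929.fib (mesh k (1 / ((N : ℝ) + 1)) (T * (N + 1))) (dl fun L => ξ (L.map evw)) l =
      0 := by
    refine fib_eq_zero (mesh_mem _ _) fun t ht L hL' => ?_
    obtain ⟨j, _, rfl⟩ := ht
    have hLl : L.length = e + 1 + 2 := by
      have := hL'.1
      simp only [List.length_cons, List.length_nil] at this
      omega
    rw [N929.dl_map ξ evw]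
    refine hc _ (by rw [List.length_map, hLl]) ⟨fun _ _ => mem_univ _, ?_⟩
    intro x hx y hy
    obtain ⟨p, hp, rfl⟩ := List.mem_map.1 hx
    obtain ⟨q, hq, rfl⟩ := List.mem_map.1 hy
    exact (grid_small hδ0 hN hL hf hL' hp hq).trans_le h2
  have e2 : (l.map fun a => (a, (T : ℝ))).map evw = l.map fun w => w T := by
    rw [List.map_map]
    rfl
  have e3 : (l.map fun a => (a, (0 : ℝ))).map evw = l.map evz := by
    rw [List.map_map]
    rfl
  rw [e1, e2, e3, hl, pow_succ]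
  ring

/-- **Additivity**, varying junction. -/
theorem eta_split (N : ℕ) {ξ : List M → k} (hξ : Nrm ξ) {α : Type} {l : List α} (hl : l ≠ [])
    (A B C : α → (ℝ →ᵇ M)) (c : ℕ) (b : M) (s : ℝ)
    (h1 : ∀ x ∈ l, ∀ u : ℝ, 0 ≤ u → u ≤ c → A x u = B x u)
    (h2 : ∀ x ∈ l, ∀ u : ℝ, 0 ≤ u → A x (c + u) = C x u)
    (h3 : ∀ x ∈ l, ∀ u : ℝ, (c : ℝ) ≤ u → B x u = B x c)
    (h4 : ∀ x ∈ l, ∀ u : ℝ, s ≤ u → C x u = b) (hs : 0 ≤ s) :
    eta N ξ (l.map A) = eta N ξ (l.map B) + eta N ξ (l.map C) := by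
  set δ : ℝ := 1 / ((N : ℝ) + 1) with hδ
  have hδ0 : (0 : ℝ) < δ := by positivity
  have hcδ : ∀ c : ℕ, ((c * (N + 1) : ℕ) : ℝ) * δ = c := int_mul_mesh N
  have a1 : eta N ξ (l.map A) = N929.fib (mesh k δ (c * (N + 1) + ⌈s⌉₊ * (N + 1)))
      (fun L => ξ (L.map evw)) (l.map A) := by
    refine eta_eq N hξ (b := b) (T := c + s) ?_ (by simpa using hl) fun w hw u hu => ?_
    · rw [← hδ, Nat.cast_add, add_mul, hcδ, hcδ]
      have := Nat.le_ceil s
      linarith
    · obtain ⟨x, hx, rfl⟩ := List.mem_map.1 hw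
      have h5 := h2 x hx (u - c) (by linarith)
      rw [add_sub_cancel] at h5
      rw [h5, h4 x hx _ (by linarith)]
  have a2 : eta N ξ (l.map B) = N929.fib (mesh k δ (c * (N + 1)))
      (fun L => ξ (L.map evw)) (l.map B) := by
    refine eta_eq' N hξ (T := c) ?_ (by simpa using hl) fun w hw u hu => ?_
    · rw [← hδ, hcδ]
    · obtain ⟨x, hx, rfl⟩ := List.mem_map.1 hw
      exact h3 x hx u hu
  have a3 : eta N ξ (l.map C) = N929.fib (mesh k δ (⌈s⌉₊ * (N + 1)))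
      (fun L => ξ (L.map evw)) (l.map C) := by
    refine eta_eq N hξ (b := b) (T := s) ?_ (by simpa using hl) fun w hw u hu => ?_
    · rw [← hδ, hcδ]
      exact Nat.le_ceil s
    · obtain ⟨x, hx, rfl⟩ := List.mem_map.1 hw
      exact h4 x hx u hu
  rw [a1, a2, a3, fib_mesh, fib_mesh, fib_mesh, Finset.sum_range_add]
  congr 1
  · refine Finset.sum_congr rfl fun i hi => ?_
    rw [N929.fib_map, N929.fib_map]
    refine fib_congr (edge_mem' δ i) fun t ht L hL => ?_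
    subst ht
    have hi' : ((i + 1 : ℕ) : ℝ) * δ ≤ c := by
      rw [← hcδ c]
      exact mul_le_mul_of_nonneg_right (by exact_mod_cast Finset.mem_range.1 hi) hδ0.le
    rw [List.map_map, List.map_map]
    congr 1
    refine List.map_congr_left fun p hp => ?_
    obtain ⟨g1, g2, g3⟩ := gr_times hδ0 hL hp
    have g4 : (0 : ℝ) ≤ (i : ℝ) * δ := by positivity
    exact h1 p.1 g1 p.2 (g4.trans g2) (g3.trans hi')
  · refine Finset.sum_congr rfl fun i hi => ?_
    rw [fib_edge_shift δ c i N hδ, N929.fib_map, N929.fib_map]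
    refine fib_congr (edge_mem' δ i) fun t ht L hL => ?_
    subst ht
    rw [List.map_map, List.map_map, List.map_map]
    congr 1
    refine List.map_congr_left fun p hp => ?_
    obtain ⟨g1, g2, g3⟩ := gr_times hδ0 hL hp
    have g6 : (0 : ℝ) ≤ (i : ℝ) * δ := by positivity
    exact h2 p.1 g1 p.2 (g6.trans g2)

end

section

variable {k : Type} [Field k] {M : Type} [MetricSpace M] [CompactSpace M]

/-- The coboundary of `w ↦ η(w⁻¹)` on the paths to `q`. -/
theorem dl_eta_rv (N : ℕ) {ξ : List M → k} (hξ : Nrm ξ) {e : ℕ} {εξ ε : ℝ}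
    (hc : Coc (univ : Set M) εξ (e + 1) ξ) (h2 : 2 * ε ≤ εξ)
    (hN : 1 / ((N : ℝ) + 1) < ε) {q : M} {T : ℕ} {l : List (ℝ →ᵇ M)} (hl : l.length = e + 2)
    (hf : Fine (PF q T) ε l) :
    dl (fun l => eta N ξ (l.map (rv T))) l = - ((-1) ^ (e + 1) * ξ (l.map evz)) := by
  have h0 : ∀ w ∈ l, w ∈ P (w 0) q (T : ℝ) := fun w hw => hf.1 w hw
  rw [N929.dl_map (eta N ξ) (rv T)]
  rw [dl_eta_gen N hξ hc h2 hN (T := T) (by rw [List.length_map, hl]) (fun w hw => ?_)
    (fun w hw w' hw' => ?_) fun w hw u hu => ?_]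
  · have e1 : ((l.map (rv (T : ℝ))).map evz) = l.map fun _ => q := by
      rw [List.map_map]
      refine List.map_congr_left fun w hw => ?_
      show rv _ w 0 = q
      rw [rv_apply, sub_zero]
      exact eq_right (h0 w hw) le_rfl
    have e2 : ((l.map (rv (T : ℝ))).map fun w => w (T : ℝ)) = l.map evz := by
      rw [List.map_map]
      refine List.map_congr_left fun w hw => ?_
      show rv _ w T = w 0
      rw [rv_apply, sub_self]
    rw [e1, e2, Nrm_const hξ (a := q) (by rw [List.length_map]; omega) (fun x hx => by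
      obtain ⟨_, _, rfl⟩ := List.mem_map.1 hx
      rfl)]
    ring
  · obtain ⟨v, hv, rfl⟩ := List.mem_map.1 hw
    exact lip_rv (h0 v hv).1 _
  · obtain ⟨v, hv, rfl⟩ := List.mem_map.1 hw
    obtain ⟨v', hv', rfl⟩ := List.mem_map.1 hw'
    exact (dist_rv_le _ v v').trans_lt (hf.2 v hv v' hv')
  · obtain ⟨v, hv, rfl⟩ := List.mem_map.1 hw
    rw [rv_apply, rv_apply, sub_self]
    exact eq_left (h0 v hv) (by linarith)

/-- **`η(w⁻¹) = - η(w) + dl θ`** on the paths to `q`. -/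
theorem exists_theta (N : ℕ) {ξ : List M → k} (hξ : Nrm ξ) {e : ℕ} (he : 1 ≤ e) {εξ ε : ℝ}
    (hc : Coc (univ : Set M) εξ (e + 1) ξ) (hε : 0 < ε) (h2 : 2 * ε ≤ εξ)
    (hN : 1 / ((N : ℝ) + 1) < ε) (q : M) (T : ℕ) :
    ∃ θ : List (ℝ →ᵇ M) → k, ∃ η > 0, ∀ l : List (ℝ →ᵇ M), l.length = e + 1 →
      SmL (PF q (T : ℝ)) η l → eta N ξ (l.map (rv T)) = - eta N ξ l + dl θ l := by
  have hcoc : CocL (PF q (T : ℝ)) e fun l => eta N ξ (l.map (rv T)) + eta N ξ l := by
    refine ⟨ε, hε, fun l hl hs => ?_⟩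
    rw [N929.dl_add_fun, dl_eta_rv N hξ hc h2 hN hl hs, dl_eta N hξ hc h2 hN hl hs]
    ring
  have h0 : H140.clsR (H901.tr (ℝ →ᵇ M)) (H901.on k) _ hcoc.toR = 0 := by
    obtain ⟨y, hy⟩ := (H83.absE k (PF q (T : ℝ)) e).surjective
      (H140.clsR (H901.tr (ℝ →ᵇ M)) (H901.on k) _ hcoc.toR)
    have := H456.PF_subsingleton k q (Nat.cast_nonneg T) he
    rw [← hy, Subsingleton.elim y 0]
    exact map_zero _
  obtain ⟨θ, -, η, hη, hθ⟩ := (H140.clsR_eq_zero.1 h0).exL
  refine ⟨θ, η, hη, fun l hl hs => ?_⟩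
  rw [← hθ l hl hs]
  ring

/-! ### The segment to `p` -/

variable {ρ₀ r : ℝ} {p : M}

/-- The segment from `x` to `p`, in the time `r`. -/
noncomputable def cutc (r : ℝ) (p x : M) : ℝ →ᵇ M := cutp r p (cst x, 0)

theorem cutc_apply (hU : LS.UniqSeg M ρ₀) (hr : 0 < r) (hrρ : r < ρ₀) {x : M}
    (hx : dist x p ≤ r) (u : ℝ) : cutc r p x u = spl r (cst x) (cst p) 0 0 u :=
  splice_apply hU hr hrρ (lip_cst x) (lip_cst p) (by rw [cst_apply, cst_apply]; exact hx) u

theorem cutc_mem (hU : LS.UniqSeg M ρ₀) (hr : 0 < r) (hrρ : r < ρ₀) {x : M}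
    (hx : dist x p ≤ r) : cutc r p x ∈ P x p r := by
  have h := splice_mem (a := x) (b := p) (t := 0) hU hr hrρ (w := cst x) (w' := cst p)
    (σ := 0) (τ := 0) (lip_cst x) (lip_cst p) (by rw [cst_apply, cst_apply]; exact hx)
    le_rfl le_rfl (fun u _ => rfl) (fun u _ => rfl)
  refine P_mono ?_ h
  linarith

/-- The integral of `ξ` over the segment to `p`. -/
noncomputable def beta (N : ℕ) (ξ : List M → k) (r : ℝ) (p : M) (m : List M) : k :=
  eta N ξ (m.map (cutc r p))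

theorem beta_nrm (N : ℕ) {ξ : List M → k} (hξ : Nrm ξ) (r : ℝ) (p : M) :
    Nrm (beta N ξ r p) := (eta_nrm N hξ).map (cutc r p)

theorem dl_beta (hU : LS.UniqSeg M ρ₀) (hr : 0 < r) (hrρ : r < ρ₀) (N : ℕ) {ξ : List M → k}
    (hξ : Nrm ξ) {e : ℕ} {εξ ε : ℝ} (hc : Coc (univ : Set M) εξ (e + 1) ξ) (hε : 0 < ε)
    (h2 : 2 * ε ≤ εξ) (hN : 1 / ((N : ℝ) + 1) < ε) (p : M) :
    ∃ η > 0, ∀ m : List M, m.length = e + 2 → SmL {x | dist x p ≤ r} η m →
      dl (beta N ξ r p) m = (-1) ^ (e + 1) * ξ m := by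
  obtain ⟨η, hη, hm⟩ := cutMod hU hr hrρ p ε hε
  refine ⟨η, hη, fun m hm1 hs => ?_⟩
  have h1 : dl (beta N ξ r p) m = dl (eta N ξ) (m.map (cutc r p)) :=
    N929.dl_map (eta N ξ) (cutc r p) m
  rw [h1, dl_eta N hξ hc h2 hN (b := p) (T := r) (by rw [List.length_map, hm1])
    ⟨fun w hw => ?_, fun w hw w' hw' => ?_⟩]
  · congr 2
    rw [List.map_map]
    conv_rhs => rw [← List.map_id m]
    exact List.map_congr_left fun x hx => eq_left (cutc_mem hU hr hrρ (hs.1 x hx)) le_rfl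
  · obtain ⟨x, hx, rfl⟩ := List.mem_map.1 hw
    exact H456.P_subset_PF (cutc_mem hU hr hrρ (hs.1 x hx))
  · obtain ⟨x, hx, rfl⟩ := List.mem_map.1 hw
    obtain ⟨y, hy, rfl⟩ := List.mem_map.1 hw'
    refine hm (cst x) (cst y) (lip_cst x) (lip_cst y) 0 0 (hs.1 x hx) (hs.1 y hy) ?_
      (by rw [sub_self, abs_zero]; exact hη)
    refine lt_of_le_of_lt ?_ (hs.2 x hx y hy)
    exact (BoundedContinuousFunction.dist_le dist_nonneg).2 fun u => le_rfl

/-- **The class `η` at the end.** -/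
theorem eta_cut (hU : LS.UniqSeg M ρ₀) (hr : 0 < r) (hrρ : r < ρ₀) (N : ℕ) {ξ : List M → k}
    (hξ : Nrm ξ) {q : M} {T : ℕ} {l : List (ℝ →ᵇ M)} (hl : l ≠ [])
    (hq : ∀ w ∈ l, w ∈ PF q (T : ℝ)) (hp : ∀ w ∈ l, dist (w 0) p ≤ r) :
    eta N ξ (l.map fun w => cutp r p (rv T w, (T : ℝ))) =
      eta N ξ (l.map (rv T)) + beta N ξ r p (l.map evz) := by
  have h0 : ∀ w ∈ l, w ∈ P (w 0) q (T : ℝ) := fun w hw => hq w hw
  have hend : ∀ w : ℝ →ᵇ M, rv (T : ℝ) w T = w 0 := fun w => by rw [rv_apply, sub_self]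
  have hval : ∀ w ∈ l, ∀ u, cutp r p (rv T w, (T : ℝ)) u =
      spl r (rv (T : ℝ) w) (cst p) T 0 u := by
    intro w hw u
    refine splice_apply hU hr hrρ (lip_rv (h0 w hw).1 _) (lip_cst p) ?_ u
    rw [hend w, cst_apply]
    exact hp w hw
  rw [beta, List.map_map]
  refine eta_split N hξ hl (fun w => cutp r p (rv T w, (T : ℝ))) (rv (T : ℝ))
    (cutc r p ∘ evz) T p r ?_ ?_ ?_ ?_ hr.le
  · intro w hw u _ hu
    rw [hval w hw, spl_left hu]
  · intro w hw u hu
    show cutp r p (rv T w, (T : ℝ)) (T + u) = cutc r p (w 0) u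
    rw [hval w hw, cutc_apply hU hr hrρ (hp w hw)]
    rcases le_total u r with h | h
    · rw [spl_mid (by linarith) (by linarith), spl_mid hu (by linarith), hend w]
      congr 1
      ring
    · rw [spl_right hr (by linarith), spl_right hr (by linarith)]
      rfl
  · intro w hw u hu
    rw [hend w, rv_apply]
    exact eq_left (h0 w hw) (by linarith)
  · intro w hw u hu
    exact eq_right (cutc_mem hU hr hrρ (hp w hw)) hu

end

end Vale.Agent.P216.D133
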