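import Vale.Agent.P216.D133.Main
import Vale.Agent.P216.D133.Base
import Vale.Agent.P216.D239.Glue
import Vale.Agent.P216.H133C.HP1
import Vale.Agent.P216.H133C.SCHP
import Vale.Agent.P216.H347C.RingHP
import Vale.Agent.P216.H893.CaRingOut
import Vale.Agent.P216.H893.CaSCI

/-!
# P216-D2: closed manifolds homotopy equivalent to `HP^m` or to the Cayley plane
-/

set_option linter.all false

open Set Topology Bundle Manifold
open scoped ContDiff

namespace Vale.Agent.P216.D133

open Vale.Agent.P216.H133C
open Vale.Agent.P216.H934D (BaseK)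

section

variable {E : Type} [NormedAddCommGroup E] [NormedSpace ℝ E] [FiniteDimensional ℝ E]
    {M : Type} [MetricSpace M] [CompactSpace M] [ChartedSpace E M] [IsManifold 𝓘(ℝ, E) ∞ M]
    [RiemannianBundle (fun x : M => TangentSpace 𝓘(ℝ, E) x)]
    [IsContMDiffRiemannianBundle 𝓘(ℝ, E) ∞ E (fun x : M => TangentSpace 𝓘(ℝ, E) x)]
    [IsRiemannianManifold 𝓘(ℝ, E) M]

include E in
/-- **P216-D2.** A closed simply connected Riemannian manifold homotopy equivalent to a space with
handles of the indices `0, d, …, d h` and a ring class, `d ≥ 4` even. -/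
theorem infinite_of_equiv [SimplyConnectedSpace M] {Q : Type} [MetricSpace Q] [CompactSpace Q]
    [PathConnectedSpace Q] {d h : ℕ} (C : CellDec Q d h) (hd : 4 ≤ d) (hde : Even d) (hh : 2 ≤ h)
    (hR : RingOut Q C) (e : ContinuousMap.HomotopyEquiv M Q) :
    (primeClosedGeodesicImages M).Infinite := by
  have hQ : ∀ (k : Type) [Field k], (2 : k) ≠ 0 → Nonempty (BaseK k M d h) := by
    intro k _ h2
    obtain ⟨B⟩ := baseK_of_ring C (by omega) hR k h2
    exact baseK_htpy B e.toFun e.invFun e.left_inv e.right_inv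
  obtain ⟨K⟩ := hQ ℚ two_ne_zero
  have hM : Nontrivial M := D239.nontrivial_of_baseK (by omega) (by omega) K
  have hdh : d * 2 ≤ d * h := Nat.mul_le_mul_left d hh
  refine D239.infinite_of (E := E) (fun ρ hρ hU _ _ _ => ?_) hd (by omega) (Or.inl hde)
    (H934D.monogenic_of_baseK K)
  obtain ⟨G, -⟩ := D337.exists_geoD hρ hU (n := d * h) (by omega) (Classical.arbitrary M)
  exact midK_equiv C (by omega) (by omega) hR e.toFun e.invFun e.left_inv e.right_inv G
    fun k _ hk => hk.1

include E in
/-- **P216-D2 for `HP^m`**, `m ≥ 2`. -/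
theorem infinite_of_equiv_HP {m : ℕ} (hm : 2 ≤ m) (e : ContinuousMap.HomotopyEquiv M (HP (m + 1))) :
    (primeClosedGeodesicImages M).Infinite := by
  have : SimplyConnectedSpace M := e.simplyConnectedSpace
  exact infinite_of_equiv (E := E) ((cellDecHP m).trans (Homeomorph.refl _)) le_rfl
    (by decide) hm (H347C.ringHP m (HP (m + 1)) (Homeomorph.refl _)) e

include E in
/-- **P216-D2 for the Cayley plane.** -/
theorem infinite_of_equiv_CaP2 (e : ContinuousMap.HomotopyEquiv M H893.CaP2) :
    (primeClosedGeodesicImages M).Infinite := by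
  have : SimplyConnectedSpace M := e.simplyConnectedSpace
  exact infinite_of_equiv (E := E) H893.cellDecCa (by norm_num) (by decide) le_rfl
    H893.ringOutCa e

end

end Vale.Agent.P216.D133
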