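import Vale.Agent.P216.H550.HEq5
import Vale.Agent.P216.C313.LadInst

/-!
# P216-D, block [D2-OM]: the ladder of the path fibration over the handles of another space

`g : Q → M` continuous, `C : CellDec Q d h`, `b : M`.  `EQ g b t`: the pairs `(y, w)`, `w` a Moore
path from `g y` to `b`.  `ladQ C g b k`: the exact sequences of the filtration by the handles of
`Q`; `intlHQ`, `intlRQ`: the fibre is `P a b t`; `ladGQ`: the geometric hypotheses `Lad.HypG`, from
the acyclicity of the top.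
-/

set_option linter.all false

open Set BoundedContinuousFunction

namespace Vale.Agent.P216.D133

open Vale.Agent.P216.AS Vale.Agent.P216.H901 Vale.Agent.P216.H83 Vale.Agent.P216.H550
open Vale.Agent.P216.H456 Vale.Agent.P216.MV337 Vale.Agent.P216.H133C Vale.Agent.P216.PS
open Vale.Agent.P216.H140
open Vale.Agent.P216.Sl (IsPi)
open Vale.Agent.P216.C313 (EY EY_mono isoCongr mono_om dep0 rk1_iff)
open Vale.Agent.P216.C337 (TrY spEY isCompact_EY)

variable {Q M : Type} [MetricSpace Q] [MetricSpace M]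

/-- The pairs `(y, w)`, `w` a Moore path from `g y` to `b`. -/
abbrev EQ (g : Q → M) (b : M) (t : ℝ) : Set (Q × (ℝ →ᵇ M)) := EY g b t univ

variable {g : Q → M} {a b : M}

theorem mono_EQ (g : Q → M) (b : M) : MonoP fun t => EQ g b t :=
  fun _ _ _ h => EY_mono h subset_rfl

theorem ovr_EQ (D : Set Q) (t : ℝ) :
    ovr (Prod.fst : Q × (ℝ →ᵇ M) → Q) (EQ g b) D t = EY g b t D := by
  ext q
  exact ⟨fun h => ⟨h.2, h.1.2⟩, fun h => ⟨⟨trivial, h.2⟩, h.1⟩⟩

section Cell

variable [CompactSpace Q] [CompactSpace M]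

theorem isCompact_EQ (hg : Continuous g) {t : ℝ} (ht : 0 ≤ t) : IsCompact (EQ g b t) :=
  isCompact_EY isCompact_univ hg.continuousOn ht

variable {n : ℕ} {D S : Set Q} {ℓ : ℝ} {T : Q → ℝ → M}

/-- **The paths over a handle.** -/
noncomputable def cellEY (C : Cell Q n D S) (hD : IsClosed D) (hS : S ⊆ D) (hg : Continuous g)
    (hT : TrY D g (fun _ => a) ℓ T) :
    SpIntl (ovr (Prod.fst : Q × (ℝ →ᵇ M) → Q) (EQ g b) D)
      (ovr (Prod.fst : Q × (ℝ →ᵇ M) → Q) (EQ g b) S)
      (fun t => H901.cub n (P a b t)) (fun t => H901.bdc n (P a b t)) ℓ :=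
  C337.spEq (spComp (spEY (b := b) hD.isCompact hg.continuousOn hS hT)
    (spCube C hD.isCompact hS (fun t _ => isCompact_P a b t) (mono_om a b))
    hT.nonneg le_rfl
    (fun s t _ h => EY_mono h subset_rfl) (fun s t _ h => EY_mono h subset_rfl)
    (fun s t hs h => H901.mono_cub n (mono_om a b) s t hs h)
    (fun s t hs h => H901.mono_bdc n (mono_om a b) s t hs h)) (add_zero _).symm
    (fun t => ovr_EQ D t) (fun t => ovr_EQ S t) (fun t => rfl) (fun t => rfl)

end Cell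

variable [CompactSpace Q] {d h : ℕ} (C : CellDec Q d h) (g : Q → M) (a b : M)

/-- The paths which start over the first `j` handles. -/
abbrev Xq (j : ℕ) : ℝ → Set (Q × (ℝ →ᵇ M)) := ovr Prod.fst (EQ g b) (C.L j)

/-- The paths which start over the handle `j`. -/
abbrev Yq (j : ℕ) : ℝ → Set (Q × (ℝ →ᵇ M)) := ovr Prod.fst (EQ g b) (C.D j)

theorem monoq_X (j : ℕ) : MonoP (Xq C g b j) := fun s t hs h =>
  ovr_mono (mono_EQ g b s t hs h) subset_rfl

theorem monoq_Y (j : ℕ) : MonoP (Yq C g b j) := fun s t hs h =>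
  ovr_mono (mono_EQ g b s t hs h) subset_rfl

theorem Xq_le {i j : ℕ} (hij : i ≤ j) (t : ℝ) : Xq C g b i t ⊆ Xq C g b j t :=
  ovr_mono subset_rfl (C.L_mono hij)

theorem Xq_zero (t : ℝ) : Xq C g b 0 t = ∅ := by
  ext w
  constructor
  · rintro ⟨_, h⟩
    rw [C.L_zero] at h
    exact h
  · exact fun h => absurd h (notMem_empty _)

theorem Xq_succ (j : ℕ) (t : ℝ) : Xq C g b (j + 1) t = Xq C g b j t ∪ Yq C g b j t := by
  ext w
  show w ∈ EQ g b t ∧ w.1 ∈ C.L (j + 1) ↔ _
  rw [C.L_succ]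
  constructor
  · rintro ⟨h1, h2 | h2⟩
    · exact Or.inl ⟨h1, h2⟩
    · exact Or.inr ⟨h1, h2⟩
  · rintro (⟨h1, h2⟩ | ⟨h1, h2⟩)
    · exact ⟨h1, Or.inl h2⟩
    · exact ⟨h1, Or.inr h2⟩

theorem Xq_top (t : ℝ) : Xq C g b (h + 1) t = EQ g b t := by
  ext w
  constructor
  · exact fun h => h.1
  · exact fun h => ⟨h, by rw [C.L_top]; exact mem_univ _⟩

theorem XYq_int (j : ℕ) (t : ℝ) :
    ovr Prod.fst (EQ g b) (C.D j ∩ C.L j) t = Xq C g b j t ∩ Yq C g b j t := by
  ext w
  exact ⟨fun h => ⟨⟨h.1, h.2.2⟩, h.1, h.2.1⟩, fun h => ⟨h.1.1, h.2.2, h.1.2⟩⟩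

/-- The trivialisation over the handle `j`. -/
abbrev TrivQ (c : ℝ) (j : ℕ) : Type :=
  SpIntl (Yq C g b j) (ovr Prod.fst (EQ g b) (C.D j ∩ C.L j)) (fun t => cub (d * j) (P a b t))
    (fun t => bdc (d * j) (P a b t)) c

variable {C g a b} [CompactSpace M] {c : ℝ} {k : Type} [Field k]

theorem cXq (hg : Continuous g) (j : ℕ) (t : ℝ) (ht : 0 < t) : IsCompact (Xq C g b j t) :=
  ovr_compact continuous_fst (C.isClosed_L j) (isCompact_EQ hg ht.le)

theorem cYq (hg : Continuous g) (j : ℕ) (t : ℝ) (ht : 0 < t) : IsCompact (Yq C g b j t) :=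
  ovr_compact continuous_fst (C.closed j) (isCompact_EQ hg ht.le)

/-- The relative module of the handle `j`. -/
noncomputable def relIq (hg : Continuous g) (h2 : (2 : k) ≠ 0) (hc : 0 ≤ c) {j : ℕ}
    (S : TrivQ C g a b c j) (q : ℕ) :
    Intl (pmP k (monoq_X C g b (j + 1)) (monoq_X C g b j) q)
      (PMr k (fun t => cub (d * j) (P a b t)) (fun t => bdc (d * j) (P a b t))
        (mono_cub (d * j) (mono_om a b)) (mono_bdc (d * j) (mono_om a b)) q) c := by
  have mU : MonoP fun t => Xq C g b j t ∪ Yq C g b j t := fun s t hs hst =>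
    union_subset_union (monoq_X C g b j s t hs hst) (monoq_Y C g b j s t hs hst)
  have mI : MonoP fun t => Xq C g b j t ∩ Yq C g b j t := fun s t hs hst =>
    inter_subset_inter (monoq_X C g b j s t hs hst) (monoq_Y C g b j s t hs hst)
  have mI' : MonoP (ovr Prod.fst (EQ g b) (C.D j ∩ C.L j)) := fun s t hs h =>
    ovr_mono (mono_EQ g b s t hs h) subset_rfl
  exact PMIso.intl
    (((isoCongr (monoq_X C g b (j + 1)) (monoq_X C g b j) mU (monoq_X C g b j) (Xq_succ C g b j)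
      (fun _ => rfl) q).trans (isoExcF h2 (cXq hg j) (cYq hg j) mI mU q)).trans
      (isoCongr (monoq_Y C g b j) mI (monoq_Y C g b j) mI' (fun _ => rfl)
        (fun t => (XYq_int C g b j t).symm) q))
    (isoRefl _) hc
    (S.intl k (monoq_Y C g b j) mI' (mono_cub (d * j) (mono_om a b)) (mono_bdc (d * j) (mono_om a b))
      (fun t => ovr_mono subset_rfl inter_subset_left) (fun t => bdc_subset _ _) hc q)

theorem rel_ephq (hg : Continuous g) (h2 : (2 : k) ≠ 0) (hc : 0 ≤ c) {j : ℕ}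
    (S : TrivQ C g a b c j) {q : ℕ} (hq : q < d * j) :
    (pmP k (monoq_X C g b (j + 1)) (monoq_X C g b j) q).Eph (2 * c) := by
  have h := (relIq hg h2 hc S q).retr.eph (C := 0) hc le_rfl
    (fun s t hs hst _ x => cub_low h2 (P a b s) (d * j) q hq _)
  rwa [zero_add] at h

/-- In the degrees `q + d j`. -/
noncomputable def relIq' (hg : Continuous g) (h2 : (2 : k) ≠ 0) (hc : 0 ≤ c) {j : ℕ}
    (S : TrivQ C g a b c j) (q : ℕ) :
    Intl (pmP k (monoq_X C g b (j + 1)) (monoq_X C g b j) (q + d * j)) (pmX k (mono_om a b) q) c :=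
  PMIso.intl (isoRefl _) (isoSus h2 (mono_om a b) (d * j) q).symm hc
    (relIq hg h2 hc S (q + d * j))

variable (C g b) in
/-- **The ladder over `Q`.** -/
noncomputable def ladQ (k : Type) [Field k] : Lad k where
  H j q := pmX k (monoq_X C g b (j + 1)) q
  R j q := pmP k (monoq_X C g b (j + 2)) (monoq_X C g b (j + 1)) q
  α j q := fA k (monoq_X C g b (j + 2)) (monoq_X C g b (j + 1)) q
  β j q := fB k (monoq_X C g b (j + 2)) (monoq_X C g b (j + 1))
    (fun t _ => Xq_le C g b (Nat.le_succ _) t) q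
  δ j q := fD k (monoq_X C g b (j + 2)) (monoq_X C g b (j + 1)) q
  α_nat j q := fA_nat k (monoq_X C g b (j + 2)) (monoq_X C g b (j + 1)) q
  β_nat j q := fB_nat k (monoq_X C g b (j + 2)) (monoq_X C g b (j + 1))
    (fun t _ => Xq_le C g b (Nat.le_succ _) t) q
  δ_nat j q := fD_nat k (monoq_X C g b (j + 2)) (monoq_X C g b (j + 1)) q
  ex1 j q := f_ex1 k (monoq_X C g b (j + 2)) (monoq_X C g b (j + 1))
    (fun t _ => Xq_le C g b (Nat.le_succ _) t) q
  ex2 j q := f_ex2 k (monoq_X C g b (j + 2)) (monoq_X C g b (j + 1))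
    (fun t _ => Xq_le C g b (Nat.le_succ _) t) q
  ex3 j q := f_ex3 k (monoq_X C g b (j + 2)) (monoq_X C g b (j + 1))
    (fun t _ => Xq_le C g b (Nat.le_succ _) t) q

/-- The paths over the handle `0`. -/
noncomputable def intlHq (hg : Continuous g) (h2 : (2 : k) ≠ 0) (hc : 0 ≤ c)
    (S : TrivQ C g a b c 0) (q : ℕ) :
    Intl ((ladQ C g b k).H 0 q) (pmX k (mono_om a b) q) c :=
  PMIso.intl (isoCongr (monoq_X C g b 1) monoP_empty (monoq_X C g b (0 + 1)) (monoq_X C g b 0)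
    (fun _ => rfl) (fun t => (Xq_zero C g b t).symm) q) (isoRefl _) hc (relIq' hg h2 hc S q)

/-- The handle `j + 1`. -/
noncomputable def intlRq (hg : Continuous g) (h2 : (2 : k) ≠ 0) (hc : 0 ≤ c) {j : ℕ}
    (S : TrivQ C g a b c (j + 1)) (q : ℕ) :
    Intl ((ladQ C g b k).R j (q + d * (j + 1))) (pmX k (mono_om a b) q) c :=
  relIq' hg h2 hc S q

/-- **The geometric hypotheses of the ladder.** -/
theorem ladGq (hg : Continuous g) (h2 : (2 : k) ≠ 0) (hc : 0 ≤ c) {D K : ℝ} (hD : IsPi M D)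
    (S : ∀ j, j ≤ h → TrivQ C g a b c j) {e : ℕ} (he : 1 ≤ e) (hde : d = e + 1)
    (hK : D + 4 * c ≤ K) (hac : ∀ q, 1 ≤ q → (pmX k (mono_EQ g b) q).Eph K) :
    (ladQ C g b k).HypG h e K := by
  have hD0 := hD.nonneg
  have hK0 : 0 ≤ K := by linarith
  refine ⟨hK0, he, fun q hq => ?_, fun j q hj hq => ?_,
    fun j q r c' hj hr hc' hH => ?_, fun j q r c' hj hr hc' hH => ?_, ?_⟩
  · intro s t hs hst hle x
    have ht : 0 < t := hs.trans_le hst
    have e1 := (isoCongr (k := k) (monoq_X C g b (h + 1)) monoP_empty (mono_EQ g b) monoP_empty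
      (Xq_top C g b) (fun _ => rfl) q).nat s t hs ht hst x
    rw [hac q hq s t hs hst hle] at e1
    exact (LinearEquiv.map_eq_zero_iff _).1 e1.symm
  · refine (rel_ephq (k := k) hg h2 hc (S (j + 1) (by omega)) ?_).mono (by linarith)
    rw [hde, Nat.mul_comm]
    exact hq
  · obtain rfl : r = q + d * (j + 1) := by rw [hr, hde]; ring
    have e1 := (intlHq hg h2 hc (S 0 (Nat.zero_le _)) q).retr'.eph hc hc' hH
    exact ((intlRq hg h2 hc (S (j + 1) (by omega)) q).retr.eph hc (by positivity) e1).mono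
      (by linarith)
  · obtain rfl : r = q + d * (j + 1) := by rw [hr, hde]; ring
    have e1 := (intlHq hg h2 hc (S 0 (Nat.zero_le _)) q).retr'.dep hc hc' (rk1_iff.1 hH)
    exact rk1_iff.2 (((intlRq hg h2 hc (S (j + 1) (by omega)) q).retr.dep hc (by positivity)
      e1).mono (by linarith))
  · exact rk1_iff.2 (((intlHq hg h2 hc (S 0 (Nat.zero_le _)) 0).retr.dep hc hD0 (dep0 hD)).mono
      (by linarith))

end Vale.Agent.P216.D133
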