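import Vale.Agent.P216.D133.Cls

/-!
# P216-D, block [D2-OM]: `η` is not exact, and LOW

* `GQ T c (y, w)`: the track `T y` of time `c`, then `w`;
* `stepAq`: classes over the handle of index `0`;
* `eta_neq`: `η` is not exact on `P a b t`, `t ≥ B`, for all fields;
* `lowC_equiv`: `LowC M (d - 1) B`.
-/

set_option linter.all false

open Set BoundedContinuousFunction

namespace Vale.Agent.P216.D133

open Vale.Agent.P216.AS Vale.Agent.P216.H901 Vale.Agent.P216.H83 Vale.Agent.P216.H550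
open Vale.Agent.P216.H456 Vale.Agent.P216.MV337 Vale.Agent.P216.H133C Vale.Agent.P216.PS
open Vale.Agent.P216.H140 Vale.Agent.P216.H456C
open Vale.Agent.P216.Sl (IsPi Nrm CocL ExL)
open Vale.Agent.P216.N929 (Coc Fine one1)
open Vale.Agent.P216.C313 (EY EY_mono sml_sub zfam exR_congr exists_isPi nrm_const)
open Vale.Agent.P216.C337 (TrY PY tw tw_mem c2)

section GQ

variable {k : Type} [Field k] {Q M : Type} [MetricSpace Q] [CompactSpace Q] [MetricSpace M]
  [CompactSpace M] {g : Q → M} {a b : M} {c t : ℝ} {T : Q → ℝ → M} {D A : Set Q}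

/-- The track `T y`, then `w`. -/
noncomputable def GQ (T : Q → ℝ → M) (c : ℝ) (q : Q × (ℝ →ᵇ M)) : Q × (ℝ →ᵇ M) :=
  (q.1, mo (lj c (fun u => T q.1 (c - u)) q.2))

theorem GQ_h0 (hT : TrY D g (fun _ => a) c T) {q : Q × (ℝ →ᵇ M)} (hq : q ∈ EY (fun _ => a) b t D) :
    q.2 0 = T q.1 (c - 0) := by
  rw [sub_zero, hT.right _ hq.1 _ le_rfl]
  exact eq_left hq.2 le_rfl

theorem tw_eq (hT : TrY D g (fun _ => a) c T) (ht : 0 ≤ t) {q : Q × (ℝ →ᵇ M)}
    (hq : q ∈ EY (fun _ => a) b t D) : tw c t (C337.rv c T) (fun _ _ => b) q = GQ T c q := by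
  refine Prod.ext rfl ?_
  show mo (c2 c t (fun u => T q.1 (c - u)) (fun _ => b) q.2) = mo (lj c (fun u => T q.1 (c - u)) q.2)
  congr 1
  funext u
  have h0 := GQ_h0 hT hq
  have h1 : q.2 t = b := eq_right hq.2 le_rfl
  rcases le_total u c with h | h
  · rw [C337.c2_one h, lj_left h]
  rcases le_total u (c + t) with h' | h'
  · rw [C337.c2_two h0 h h', lj_right h0 h]
  · rw [C337.c2_three h0 ht h1 h', lj_right h0 h, eq_right hq.2 (by linarith)]

theorem GQ_mem (hT : TrY D g (fun _ => a) c T) (ht : 0 ≤ t) {q : Q × (ℝ →ᵇ M)}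
    (hq : q ∈ EY (fun _ => a) b t D) (hA : q.1 ∈ A) : GQ T c q ∈ EY g b (t + c) A := by
  rw [← tw_eq hT ht hq]
  have h := tw_mem (A := A) hT.rv_ (TrY.const_ (L := D) (f := fun _ => b) continuousOn_const) ht
    hA hq
  exact EY_mono (by linarith) le_rfl h

theorem GQ_apply (hT : TrY D g (fun _ => a) c T) {q : Q × (ℝ →ᵇ M)}
    (hq : q ∈ EY (fun _ => a) b t D) (u : ℝ) :
    (GQ T c q).2 u = lj c (fun u => T q.1 (c - u)) q.2 u := by
  refine (lip_lj ?_ hq.2.1 (GQ_h0 hT hq)).mo_apply u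
  exact (hT.lip _ hq.1).comp fun u v => by
    rw [abs_sub_comm u v]; apply le_of_eq; congr 1; ring

theorem GQ_cont (hT : TrY D g (fun _ => a) c T) (ht : 0 ≤ t) :
    ContinuousOn (GQ T c : Q × (ℝ →ᵇ M) → Q × (ℝ →ᵇ M)) (EY (fun _ => a) b t D) :=
  (C337.continuousOn_tw hT.rv_ (TrY.const_ (L := D) (f := fun _ => b) continuousOn_const)
    ht).congr fun q hq => (tw_eq hT ht hq).symm

/-- **Classes over the handle of index `0`.** -/
theorem stepAq {S : Set Q} (C : Cell Q 0 D S) (hD : IsClosed D) (hS : S = ∅) (hg : Continuous g)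
    (hT : TrY D g (fun _ => a) c T) {f : List (Q × (ℝ →ᵇ M)) → k} {m : ℕ} {r s : ℝ}
    (hr : 0 < r) (h₁ : r + c ≤ s) (h₂ : s + c ≤ t)
    (hf : CocL (ovr Prod.fst (EQ g b) D t) m f)
    (hG : ExL (P a b s) m fun l => f (l.map fun z => GQ T c (C.ψ Fin.elim0, z))) :
    ExL (ovr Prod.fst (EQ g b) D r) m f := by
  have hc : 0 ≤ c := hT.nonneg
  have hs : 0 < s := by linarith
  have hrt : r ≤ t := by linarith
  have hSD : S ⊆ D := by rw [hS]; exact empty_subset _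
  let SI := cellEY (b := b) C hD hSD hg hT
  have eS : ∀ t, ovr Prod.fst (EQ g b) S t = ∅ := by
    intro t
    subst hS
    ext w
    exact ⟨fun h => h.2.elim, fun h => h.elim⟩
  have mA : Mono (ovr Prod.fst (EQ g b) D) := fun s t hs h =>
    ovr_mono (mono_EQ g b s t hs h) subset_rfl
  have mA' : Mono (ovr Prod.fst (EQ g b) S) := fun s t hs h =>
    ovr_mono (mono_EQ g b s t hs h) subset_rfl
  have mB : Mono (fun t => H901.cub 0 (P a b t)) := fun s t _ h => P_mono h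
  have mB' : Mono (fun t => H901.bdc 0 (P a b t)) := fun s t _ h => subset_rfl
  have hAA : ∀ t, ovr Prod.fst (EQ g b) S t ⊆ ovr Prod.fst (EQ g b) D t := fun t =>
    ovr_mono subset_rfl hSD
  have hBB : ∀ t, H901.bdc 0 (P a b t) ⊆ H901.cub 0 (P a b t) := fun t => empty_subset _
  have hfR : CocR (ovr Prod.fst (EQ g b) D t) (ovr Prod.fst (EQ g b) S t) m f :=
    ⟨hf, vanL_of_empty (eS t)⟩
  have key := SI.pf_pf (k := k) mA mA' mB mB' hAA hBB hc m r s t hr hs h₁ h₂ hrt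
    (clsR (tr _) (on k) f hfR)
  have e1 : SI.symm.pf k mA mA' hBB hc m s t hs h₂ (clsR (tr _) (on k) f hfR) =
      clsR (tr _) (on k) _ (hfR.map (SI.symm.map_f mA hc hs h₂) (hBB s)
        (SI.symm.sub_f mA' hc hs h₂)) := pullR_clsR _ _ _ _
  have hψ : C.ψ Fin.elim0 ∈ D := C.ψ_mem _ fun i => i.elim0
  have e2 : clsR (tr _) (on k) _ (hfR.map (SI.symm.map_f mA hc hs h₂) (hBB s)
        (SI.symm.sub_f mA' hc hs h₂)) = 0 := by
    rw [clsR_eq_zero]
    obtain ⟨u, hu0, ε, hε, h⟩ := hG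
    refine ⟨u, hu0, ?_, ε, hε, fun l hl hs' => ?_⟩
    · rcases m with _ | m
      · exact ⟨1, one_pos, fun l _ _ => hu0 rfl l⟩
      · exact vanL_of_empty rfl
    · refine Eq.trans ?_ (h l hl hs')
      refine congrArg f ?_
      refine List.map_congr_left (f := SI.symm.f s) fun z hz => ?_
      have hz' : z ∈ P a b s := hs'.1 z hz
      change tw c (s + 0) (C337.rv c T) (fun _ _ => b) (C.ψ (dec2 0 z), z) = _
      rw [tw_eq (t := s + 0) (D := D) hT (by linarith)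
        ⟨by rw [Subsingleton.elim (dec2 0 z) Fin.elim0]; exact hψ, P_mono (by linarith) hz'⟩,
        Subsingleton.elim (dec2 0 z) Fin.elim0]
  rw [e1, e2, map_zero] at key
  have e3 : clsR (tr _) (on k) f (hfR.mono (mA r t hr hrt) (mA' r t hr hrt)) = 0 := key.symm
  exact (clsR_eq_zero.1 e3).exL

variable {d h : ℕ} {C : CellDec Q d h} {S : KSeq k C} {ξ : List M → k} {ε₀ : ℝ} {N : ℕ}

/-- `η` on the paths with a common track in front. -/
theorem eta_GQ (hE : EtaM d N ε₀ ξ) {m : ℕ} (hT : TrY D g (fun _ => a) (m : ℝ) T) {x : Q}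
    (hx : x ∈ D) {l : List (ℝ →ᵇ M)} (hl : 2 ≤ l.length) (hs : ∀ w ∈ l, w ∈ P a b t) :
    eta N ξ ((l.map fun z => GQ T m (x, z)).map Prod.snd) = eta N ξ l := by
  rw [List.map_map]
  refine hE.front m (fun u => T x (m - (m - u))) (fun z => (GQ T m (x, z)).2) l hl
    fun w hw => ⟨fun u _ hu => ?_, fun u hu => ?_⟩
  · rw [GQ_apply (q := (x, w)) (b := b) (t := t) hT ⟨hx, hs w hw⟩, lj_left hu]
  · have h0 := GQ_h0 (q := (x, w)) (b := b) (t := t) hT ⟨hx, hs w hw⟩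
    rw [GQ_apply (q := (x, w)) (b := b) (t := t) hT ⟨hx, hs w hw⟩, lj_right h0 hu]

/-- On the paths with a common track in front, `fAq S ξ N 0` is `η`. -/
theorem fAq_front (hE : EtaM d N ε₀ ξ) (hd : 2 ≤ d) {m : ℕ} (hT : TrY D g (fun _ => a) (m : ℝ) T)
    {x : Q} (hx : x ∈ D) {l : List (ℝ →ᵇ M)}
    (hl : l.length = d) (hs : ∀ w ∈ l, w ∈ P a b t) :
    fAq S ξ N 0 (l.map fun z => GQ T m (x, z)) = eta N ξ l := by
  set G : (ℝ →ᵇ M) → Q × (ℝ →ᵇ M) := fun z => GQ T m (x, z) with hG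
  have e1 : d - 1 + 1 = d := by omega
  have h1 : eta N ξ ((l.map G).map Prod.snd) = eta N ξ l := eta_GQ hE hT hx (by omega) hs
  have h2 : S.μ (0 + 1) ((l.map G).map Prod.fst) = 0 := by
    refine nrm_const (S.nμ _) (p := x) (by rw [List.length_map, List.length_map]; omega)
      fun y hy => ?_
    obtain ⟨w', hw', rfl⟩ := List.mem_map.1 hy
    obtain ⟨w, hw, rfl⟩ := List.mem_map.1 hw'
    rfl
  have h3 : S.κ 0 (((l.map G).drop (d - 1)).map Prod.fst) = 1 := by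
    rw [S.κ0]
    exact if_pos (by rw [List.length_map, List.length_drop, List.length_map]; omega)
  change eta N ξ (((l.map G).take (d - 1 + 1)).map Prod.snd) *
    S.κ 0 (((l.map G).drop (d - 1)).map Prod.fst) -
    (-1) ^ d * S.μ (0 + 1) ((l.map G).map Prod.fst) = _
  rw [h3, h2, e1, List.take_of_length_le (by rw [List.length_map, hl]), h1, mul_zero, sub_zero,
    mul_one]

theorem interq_zero : C.D 0 ∩ C.L 0 = ∅ := by rw [C.L_zero, inter_empty]

theorem Xq_one (b : M) (t : ℝ) : Xq C g b 1 t ⊆ ovr Prod.fst (EQ g b) (C.D 0) t := by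
  rintro w ⟨h1, h2⟩
  rw [C.L_succ, C.L_zero, empty_union] at h2
  exact ⟨h1, h2⟩

end GQ

section

variable {Q M : Type} [MetricSpace Q] [CompactSpace Q] [PathConnectedSpace Q] [MetricSpace M]
  [CompactSpace M] [SimplyConnectedSpace M] {d h : ℕ}

/-- **`η` is not exact.** -/
theorem eta_neq (C : CellDec Q d h) (hd : 2 ≤ d) (hh : 1 ≤ h) (f : C(M, Q)) (g : C(Q, M))
    (hgf : (g.comp f).Homotopic (ContinuousMap.id M))
    (hfg : (f.comp g).Homotopic (ContinuousMap.id Q)) {ρ : ℝ} (hρ : 0 < ρ)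
    (hU : LS.UniqSeg M ρ) :
    ∃ B : ℝ, 0 < B ∧ ∀ (k : Type) [Field k], (2 : k) ≠ 0 → ∀ (S : KSeq k C) (ξ : List M → k)
      (ε₀ : ℝ) (N : ℕ), 0 < ε₀ → EtaM d N ε₀ ξ → (S.ξ = fun l => ξ (l.map g)) →
      ∀ (a b : M) (t : ℝ), B ≤ t → ¬ ExL (P a b t) (d - 1) (eta N ξ) := by
  obtain ⟨K, m, hK, hmK, hT, hY⟩ := exists_hypQ C hd f g hgf hfg hρ hU
  have hm : (0 : ℝ) ≤ m := Nat.cast_nonneg m
  refine ⟨K + m, by positivity, fun k _ h2 S ξ ε₀ N hε₀ hE hS a b t ht hex => ?_⟩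
  obtain ⟨Y, hYA⟩ := hY k h2 S ξ ε₀ N hε₀ hE hS b
  obtain ⟨T, hT⟩ := hT a 0 (Nat.zero_le h)
  have hn : 0 * (d - 1 + 1) + (d - 1) + 1 = d * (0 + 1) := by omega
  have hn' : 0 * (d - 1 + 1) + (d - 1) = d - 1 := by omega
  have hL1 : C.D 0 ⊆ C.L (0 + 1) := by rw [C.L_succ]; exact subset_union_right
  -- the class over the handle `0`
  have e1 : ExL (ovr Prod.fst (EQ g b) (C.D 0) K) (0 * (d - 1 + 1) + (d - 1)) (fAq S ξ N 0) := by
    refine stepAq (C := (C.cellL (Nat.zero_le h) : Cell Q (d * 0) _ _)) (C.closed 0) interq_zero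
      g.continuous hT (s := t) (t := t + m) hK ht le_rfl ?_ ?_
    · exact coc_fAq hE hε₀ hS hd (Nat.zero_le h) hn (fun w hw => hw.1) (fun w hw => hL1 hw.2)
    · rw [hn']
      obtain ⟨u, hu, ε, hε, h1⟩ := hex
      refine ⟨u, hu, ε, hε, fun l hl hs => ?_⟩
      rw [← h1 l hl hs]
      exact fAq_front hE hd hT ((C.cellL (Nat.zero_le h)).ψ_mem _ fun i => Fin.elim0 i)
        (by omega) hs.1
  have e2 := e1.mono (Xq_one (C := C) b K)
  have hc : CocR (Xq C g b 1 K) ∅ (0 * (d - 1 + 1) + (d - 1)) (fAq S ξ N 0) :=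
    (coc_fAq hE hε₀ hS hd (Nat.zero_le h) hn (fun w hw => hw.1) (fun w hw => hw.2)).toR
  refine Y.A_ne (j := 0) (by omega) hK le_rfl ?_
  refine (hYA K hK hc).trans (clsR_eq_zero.2 ?_)
  obtain ⟨u, hu, h1⟩ := e2
  exact ⟨u, hu, by rw [hn', show d - 1 = d - 2 + 1 by omega]; exact vanL_empty, h1⟩

/-- **LOW.** -/
theorem lowC_equiv (C : CellDec Q d h) (hd : 2 ≤ d) (hh : 1 ≤ h) (f : C(M, Q)) (g : C(Q, M))
    (hgf : (g.comp f).Homotopic (ContinuousMap.id M))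
    (hfg : (f.comp g).Homotopic (ContinuousMap.id Q)) (hR : RingOut Q C) {ρ : ℝ} (hρ : 0 < ρ)
    (hU : LS.UniqSeg M ρ) : ∃ B : ℝ, 0 ≤ B ∧ C313.LowC M (d - 1) B := by
  obtain ⟨K, m, hK, hmK, hT, hY⟩ := exists_hypQ C hd f g hgf hfg hρ hU
  have hm : (0 : ℝ) ≤ m := Nat.cast_nonneg m
  set K' : ℝ := ((h + 3 : ℕ) : ℝ) * K with hK'
  have hK'0 : 0 ≤ K' := by positivity
  refine ⟨1 + (K' + 2 * m), by positivity, fun k _ h2 a b t ht hX q hq hqd => ?_⟩
  obtain ⟨ξ, ε₀, hN, hε₀, hξ, S, hS⟩ := exists_kSeq C (by omega) hR f g hfg k h2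
  obtain ⟨N, hN'⟩ := exists_nat_one_div_lt (show 0 < ε₀ / 4 by positivity)
  have hE := etaM (N := N) hd hε₀ hN hξ hN'
  obtain ⟨Y, -⟩ := hY k h2 S ξ ε₀ N hε₀ hE hS b
  obtain ⟨T, hT⟩ := hT a 0 (Nat.zero_le h)
  have hS0 : TrivQ C g a b m 0 :=
    cellEY (C.cellL (Nat.zero_le h)) (C.closed 0) inter_subset_left g.continuous hT
  have m1 : P a b (t + 1) ⊆ P a b (t + (1 + (K' + 2 * m))) := P_mono (by linarith)
  have m2 : P a b t ⊆ P a b (t + 1) := P_mono (by linarith)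
  -- transport to the absolute groups
  have key : ∀ z : B64.HU k (P a b (t + (1 + (K' + 2 * m)))) q,
      (pmX k (C313.mono_om a b) q).ρ (t + 1) (t + (1 + (K' + 2 * m))) (by linarith) (by linarith)
        (absE k (P a b (t + (1 + (K' + 2 * m)))) q z) = 0 → B64.hres k hX q z = 0 := by
    intro z hz
    have e1 : absE k (P a b (t + 1)) q (res m1 q z) = 0 := by
      rw [← absE_nat]
      exact hz
    rw [LinearEquiv.map_eq_zero_iff] at e1
    have e2 : B64.hres k hX q z = res m2 q (res m1 q z) := (res_res m1 m2 z).symm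
    rw [e2, e1, map_zero]
  rcases lt_or_ge q (d - 1) with hlt | hge
  · have e0 : ((ladQ C g b k).H 0 q).Eph K' :=
      eph_mono (Y.low_eph hq hlt) (mul_le_mul_of_nonneg_right (by
        push_cast
        linarith) hK.le)
    have e1 : (pmX k (C313.mono_om a b) q).Eph (K' + 2 * m) :=
      (intlHq g.continuous h2 hm hS0 q).retr'.eph hm hK'0 e0
    have e2 : ∀ z : B64.HU k (P a b (t + (1 + (K' + 2 * m)))) q, B64.hres k hX q z = 0 := fun z =>
      key z (e1 _ _ _ _ (by linarith) _)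
    exact ⟨fun z z' => ⟨1, 0, Or.inl one_ne_zero, e2 _⟩, fun _ => e2⟩
  · obtain rfl : q = d - 1 := by omega
    have e0 : Rk1 ((ladQ C g b k).H 0 (d - 1)) K' := Y.low_rk1 hh
    have e1 : (pmX k (C313.mono_om a b) (d - 1)).Dep (K' + 2 * m) :=
      (intlHq g.continuous h2 hm hS0 (d - 1)).retr'.dep hm hK'0 (C313.rk1_iff.1 e0)
    refine ⟨fun z z' => ?_, fun hlt => absurd hlt (lt_irrefl _)⟩
    obtain ⟨u, v, huv, e⟩ := e1 (t + 1) (t + (1 + (K' + 2 * m))) (by linarith) (by linarith)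
      (by linarith) (absE k (P a b (t + (1 + (K' + 2 * m)))) (d - 1) z)
      (absE k (P a b (t + (1 + (K' + 2 * m)))) (d - 1) z')
    refine ⟨u, v, huv, key _ ?_⟩
    rw [map_add, map_smul, map_smul]
    exact e

end

end Vale.Agent.P216.D133
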