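import Vale.Agent.P216.D133.W1
import Vale.Agent.P216.H977C.OmD
import Vale.Agent.P216.H140.MidOut

/-!
# P216-D, block [D2-OM]: MID for `M` homotopy equivalent to `Q`
-/

set_option linter.all false

open Set Finsupp BoundedContinuousFunction

namespace Vale.Agent.P216.D133

open Vale.Agent.P216.Sl Vale.Agent.P216.PS Vale.Agent.P216.H133C Vale.Agent.P216.H977C
open Vale.Agent.P216.H140
open Vale.Agent.P216.N929 (Coc Fine Tau Scl Cy stp Geo exists_scl cutMod)

/-- **[MID]** for `M` homotopy equivalent to a space with handles of the indices `d j`. -/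
theorem midOut_equiv {Q M : Type} [MetricSpace Q] [CompactSpace Q] [PathConnectedSpace Q]
    [MetricSpace M] [CompactSpace M] [SimplyConnectedSpace M] {d h : ℕ} (C : CellDec Q d h)
    (hd : 2 ≤ d) (hh : 1 ≤ h) (hR : RingOut Q C) (f : C(M, Q)) (g : C(Q, M))
    (hgf : (g.comp f).Homotopic (ContinuousMap.id M))
    (hfg : (f.comp g).Homotopic (ContinuousMap.id Q)) :
    MidOut M (d * h) (d - 1) (d * (h + 1) - 2) := by
  intro G
  obtain ⟨u, hu⟩ := w1_neq C hd hh f g hgf hfg (G.hr.trans G.hrρ) G.seg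
  refine ⟨u, Nat.cast_nonneg u, fun k _ h2 τ hτ => ?_⟩
  obtain ⟨ξ, ε, hξN, hε, hξ, S, hS⟩ := exists_kSeq C (by omega) hR f g hfg k h2
  have hε4 : 0 < ε / 4 := by linarith
  obtain ⟨N, hN⟩ := exists_nat_one_div_lt (K := ℝ) hε4
  have hc : Coc (univ : Set M) ε (d - 1 + 1) ξ := by
    rw [Nat.sub_add_cancel (by omega)]
    exact hξ
  have hdh : d * (h + 1) = d * h + d := by ring
  refine ⟨etaE N hξN hε hc hN, etaE_add N hξN hε hc hN, ?_⟩
  refine mid_of G τ (etaE N hξN hε hc hN) (Nat.cast_nonneg u) (by omega) fun b => ?_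
  obtain ⟨η₀, hs⟩ := exists_scl (ε := ε / 4) τ G.h1r (cutMod G.seg G.hr G.hrρ (G.y !b)) hε4
  obtain ⟨N', hN'⟩ := exists_nat_one_div_lt (K := ℝ) hs.pos
  refine ⟨1 / ((N' : ℝ) + 1), by positivity, η₀, hs, hN', ?_⟩
  exact hu k h2 S ξ ε N hξN hε hξ hN hS (G.y !b) (G.y b) G.ρ₁ G.r τ G.hr G.hrρ G.h1r (hτ _)
    (G.hy b) N' η₀ hs hN'

/-- **[MID]** in the form of P216-D (class of the fields with `2 ≠ 0`). -/
theorem midK_equiv {Q M : Type} [MetricSpace Q] [CompactSpace Q] [PathConnectedSpace Q]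
    [MetricSpace M] [CompactSpace M] [SimplyConnectedSpace M] {d h : ℕ} (C : CellDec Q d h)
    (hd : 2 ≤ d) (hh : 1 ≤ h) (hR : RingOut Q C) (f : C(M, Q)) (g : C(Q, M))
    (hgf : (g.comp f).Homotopic (ContinuousMap.id M))
    (hfg : (f.comp g).Homotopic (ContinuousMap.id Q)) (G : Geo M (d * h)) {Kf : Fld}
    (hK : ∀ (k : Type) [Field k], Kf k → (2 : k) ≠ 0) :
    MidK Kf M (d * h) (d - 1) (d * (h + 1) - 2) := by
  obtain ⟨s, hs, H⟩ := midOut_equiv C hd hh hR f g hgf hfg G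
  exact ⟨G, s, hs, fun k _ hk τ hτ => H k (hK k hk) τ hτ⟩

end Vale.Agent.P216.D133
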