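import Vale.Agent.P216.D133.W1B
import Vale.Agent.P216.H539.V3
import Vale.Agent.P216.H923C.V1

/-!
# P216-D, block [D2-OM]: `W_1 ≠ 0` for `M` homotopy equivalent to `Q`

No condition on the crossing point `p`.
-/

set_option linter.all false

open Set Finsupp BoundedContinuousFunction

namespace Vale.Agent.P216.D133

open Vale.Agent.P216.AS Vale.Agent.P216.H901 Vale.Agent.P216.H83 Vale.Agent.P216.Sl
open Vale.Agent.P216.H456 Vale.Agent.P216.H456C Vale.Agent.P216.MV337 Vale.Agent.P216.H133C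
open Vale.Agent.P216.PS Vale.Agent.P216.H140
open Vale.Agent.P216.N929 (Coc Fine Tau Scl Cy stp cutp)
open Vale.Agent.P216.C337 (smL_sub cocL_sub_dl TrY)
open Vale.Agent.P216.C313 (sml_sub EY EY_mono nrm_const)
open Vale.Agent.P216.H754B (rv rv_apply)

section Key

variable {k : Type} [Field k] {Q M : Type} [MetricSpace Q] [CompactSpace Q] [MetricSpace M]
  [CompactSpace M] {d h : ℕ}

/-- The value at the end, over `Q`. -/
theorem Th_eq {n e : ℕ} {ρ₀ ρ₁ r : ℝ} (hU : LS.UniqSeg M ρ₀) (hr : 0 < r) (hrρ : r < ρ₀)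
    (τ : Tau k M n ρ₁) {g : Q → M} {p q : M} {Nη T : ℕ} {ξ : List M → k} (hξ : Nrm ξ)
    {θ : List (ℝ →ᵇ M) → k} {l : List (Q × (ℝ →ᵇ M))} (hl : l.length = n + e + 1)
    (hq : ∀ x ∈ l, x ∈ EQ g q (T : ℝ))
    (hd : ∀ x ∈ l, ∀ y ∈ l, dist (g x.1) (g y.1) < r - ρ₁)
    (hθ : eta Nη ξ (((l.drop n).map Prod.snd).map (rv T)) =
      -eta Nη ξ ((l.drop n).map Prod.snd) + dl θ ((l.drop n).map Prod.snd)) :
    H140.Th n τ.f (eta Nη ξ) r p T (l.map Prod.snd) =
      tg τ g p ((l.take (n + 1)).map Prod.fst) * (-eta Nη ξ ((l.drop n).map Prod.snd) +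
        dl θ ((l.drop n).map Prod.snd) + beta Nη ξ r p (((l.drop n).map Prod.fst).map g)) := by
  have e1 : H140.Th n τ.f (eta Nη ξ) r p T (l.map Prod.snd) =
      tg τ g p ((l.take (n + 1)).map Prod.fst) *
        eta Nη ξ (((l.drop n).map Prod.snd).map fun w => cutp r p (rv T w, (T : ℝ))) := by
    rw [H140.Th, N929.intg, N929.cup]
    congr 1
    · show τ.f _ = τ.f _
      rw [← List.map_take, ← List.map_take, List.map_map, List.map_map, List.map_map]
      refine congrArg τ.f (List.map_congr_left fun x hx => ?_)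
      have hx' := hq x (List.mem_of_mem_take hx)
      change (rv T x.2 T, p) = (g x.1, p)
      rw [rv_apply, sub_self, EQ_zero hx']
    · rw [← List.map_drop, ← List.map_drop, List.map_map]
      rfl
  rw [e1]
  by_cases h0 : tg τ g p ((l.take (n + 1)).map Prod.fst) = 0
  · rw [h0, zero_mul, zero_mul]
  · have hb : ∀ y ∈ l.map Prod.fst, dist (g y) p ≤ r := by
      refine ball_of_ne τ (fun y hy y' hy' => ?_) (by
        intro h
        rw [List.map_eq_nil_iff] at h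
        rw [h] at hl
        simp at hl) (by rwa [← List.map_take])
      obtain ⟨x, hx, rfl⟩ := List.mem_map.1 hy
      obtain ⟨x', hx', rfl⟩ := List.mem_map.1 hy'
      exact hd x hx x' hx'
    have hq' : ∀ w ∈ (l.drop n).map Prod.snd, w ∈ PF q (T : ℝ) := by
      intro w hw
      obtain ⟨x, hx, rfl⟩ := List.mem_map.1 hw
      exact EQ_PF (hq x (List.mem_of_mem_drop hx))
    have hp' : ∀ w ∈ (l.drop n).map Prod.snd, dist (w 0) p ≤ r := by
      intro w hw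
      obtain ⟨x, hx, rfl⟩ := List.mem_map.1 hw
      have hx' := List.mem_of_mem_drop hx
      rw [EQ_zero (hq x hx')]
      exact hb _ (List.mem_map.2 ⟨x, hx', rfl⟩)
    have hne : (l.drop n).map Prod.snd ≠ [] := by
      intro h
      rw [List.map_eq_nil_iff] at h
      have := congrArg List.length h
      rw [List.length_drop, List.length_nil] at this
      omega
    rw [eta_cut hU hr hrρ Nη hξ hne hq' hp', hθ,
      map_evz_snd (t := (T : ℝ)) (b := q) fun x hx => hq x (List.mem_of_mem_drop hx)]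

/-- The correction vanishes on lists with a constant base point. -/
theorem Zq_const {n m : ℕ} (hn : 2 ≤ n) (hm : 2 ≤ m) {ν tp ω₂ : List Q → k}
    {η θ : List (ℝ →ᵇ M) → k} (h1 : Nrm ν) (h2 : Nrm tp) (h3 : Nrm ω₂)
    {l : List (Q × (ℝ →ᵇ M))} (hl : l.length = m) (hnm : n ≤ m) {y : Q} (hy : ∀ x ∈ l, x.1 = y)
    (htp : tp ((l.take (n + 1)).map Prod.fst) = 0) :
    Zq n ν tp ω₂ η θ l = 0 := by
  have a1 : ν ((l.take (n - 1 + 1)).map Prod.fst) = 0 := by
    refine nrm_const h1 (p := y) (by rw [List.length_map, List.length_take]; omega) fun x hx => ?_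
    obtain ⟨z, hz, rfl⟩ := List.mem_map.1 hx
    exact hy z (List.mem_of_mem_take hz)
  have a3 : ω₂ (l.map Prod.fst) = 0 := by
    refine nrm_const h3 (p := y) (by rw [List.length_map]; omega) fun x hx => ?_
    obtain ⟨z, hz, rfl⟩ := List.mem_map.1 hx
    exact hy z hz
  unfold Zq N929.cup
  simp only [a1, htp, a3, zero_mul, mul_zero, add_zero]

end Key

/-- **`W_1 ≠ 0`.** -/
theorem w1_neq {Q M : Type} [MetricSpace Q] [CompactSpace Q] [PathConnectedSpace Q]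
    [MetricSpace M] [CompactSpace M] [SimplyConnectedSpace M] {d h : ℕ} (C : CellDec Q d h)
    (hd : 2 ≤ d) (hh : 1 ≤ h) (f : C(M, Q)) (g : C(Q, M))
    (hgf : (g.comp f).Homotopic (ContinuousMap.id M))
    (hfg : (f.comp g).Homotopic (ContinuousMap.id Q)) {ρ₀ : ℝ} (hρ : 0 < ρ₀)
    (hU : LS.UniqSeg M ρ₀) :
    ∃ u : ℕ, ∀ (k : Type) [Field k], (2 : k) ≠ 0 → ∀ (S : KSeq k C) (ξ : List M → k) (ε₀ : ℝ)
      (Nη : ℕ), Nrm ξ → 0 < ε₀ → Coc (univ : Set M) ε₀ d ξ → 1 / ((Nη : ℝ) + 1) < ε₀ / 4 →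
      (S.ξ = fun l => ξ (l.map g)) → ∀ (p q : M) (ρ₁ r : ℝ) (τ : Tau k M (d * h) ρ₁),
      0 < r → r < ρ₀ → ρ₁ < r →
      (¬ ExL (univ : Set M) (d * h) fun l => τ.f (l.map fun x => (x, p))) →
      ρ₁ ≤ dist q p → ∀ (N : ℕ) (η₀ : ℝ),
      Scl τ r p (ε₀ / 4) η₀ → 1 / ((N : ℝ) + 1) < η₀ →
      ¬ ExL (P q q u) (d * (h + 1) - 2)
        (stp (d * h) τ.f r (1 / ((N : ℝ) + 1)) p (eta Nη ξ)) := by
  obtain ⟨h', rfl⟩ := Nat.exists_eq_succ_of_ne_zero (show h ≠ 0 by omega)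
  obtain ⟨K, m, hK, hmK, hTr, hY⟩ := exists_hypQ C hd f g hgf hfg hρ hU
  obtain ⟨B, -, hB⟩ := eta_neq C hd hh f g hgf hfg hρ hU
  -- the degrees
  set n := d * (h' + 1) with hn
  have hn2 : d * (h' + 1 + 1) = n + d := by rw [hn]; ring
  set D' := d * (h' + 1 + 1) - 2 with hD'
  have hnd : 2 ≤ n := by
    have : d * 1 ≤ d * (h' + 1) := Nat.mul_le_mul_left d (by omega)
    omega
  have hnh : n = d * h' + d := by rw [hn]; ring
  have hDn : D' + 1 = n + (d - 1) := by omega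
  have hr' : D' + 1 = (h' + 1) * (d - 1 + 1) + (d - 1) := by
    have e1 : d - 1 + 1 = d := by omega
    rw [e1, Nat.mul_comm (h' + 1) d]
    omega
  -- the levels
  set c₁ : ℝ := Lad.cm (h' + 1) K D' + K with hc₁
  set t'' : ℕ := ⌈B⌉₊ + 1 with ht''
  set Lv : ℕ := ⌈(h' : ℝ) * c₁⌉₊ + (t'' + m) with hLv
  refine ⟨Lv + m, fun k _ h2 S ξ ε₀ Nη hξN hε₀ hξ hNη hS p q ρ₁ r τ hr hrρ h1r hτ hqp N η₀ hs hN
    hW => ?_⟩
  have hE : EtaM d Nη ε₀ ξ := etaM hd hε₀ hξN hξ hNη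
  have hd1 : d - 1 + 1 = d := by omega
  have hξ' : Coc (univ : Set M) ε₀ (d - 1 + 1) ξ := by rw [hd1]; exact hξ
  have hε4 : 0 < ε₀ / 4 := by positivity
  have hη₀ : 0 < η₀ := hs.pos
  have hLv0 : (0 : ℝ) < Lv := by
    rw [hLv, ht'']
    push_cast
    positivity
  have hTv : ((t'' : ℝ) + m) ≤ Lv := by
    rw [hLv]
    push_cast
    have : (0 : ℝ) ≤ (⌈(h' : ℝ) * c₁⌉₊ : ℝ) := by positivity
    linarith
  have hm0 : (0 : ℝ) ≤ m := Nat.cast_nonneg m
  set T : ℕ := Lv + m + m with hT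
  set V₀ := VV n τ.f (eta Nη ξ) r p N T with hV₀
  set c₀ : k := (-1) ^ (n + (d - 1) + 1) with hc₀
  have hc₀0 : c₀ ≠ 0 := pow_ne_zero _ (neg_ne_zero.2 one_ne_zero)
  -- `dl V = ± Θ`
  have hdV : ∀ l : List (ℝ →ᵇ M), l.length = n + (d - 1) + 1 →
      Fine (PF q (T : ℝ)) η₀ l → dl V₀ l = c₀ * H140.Th n τ.f (eta Nη ξ) r p T l :=
    H923C.v1 k M n (d - 1) N T ρ₀ ρ₁ r (ε₀ / 4) η₀ p q τ (eta Nη ξ) hU hr hrρ (by omega) hs
      (fun T => hE.coc q p T) hN hqp
  -- the cochains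
  obtain ⟨θ, ηθ, hηθ, hθ⟩ := exists_theta Nη hξN (e := d - 1) (by omega) hξ' hε4
    (by linarith : 2 * (ε₀ / 4) ≤ ε₀) hNη q T
  obtain ⟨ηβ, hηβ, hβ⟩ := dl_beta hU hr hrρ Nη hξN (e := d - 1) hξ' hε4
    (by linarith : 2 * (ε₀ / 4) ≤ ε₀) hNη p
  obtain ⟨δg, hδg, hgu⟩ := (map_uc g).uc (min (r - ρ₁) ηβ) (lt_min (by linarith) hηβ)
  have hgu' : ∀ x y : Q, dist x y < δg → dist (g x) (g y) < min (r - ρ₁) ηβ := fun x y hxy =>
    hgu x trivial y trivial hxy
  obtain ⟨δτ, hδτ, hτc⟩ := tg_coc τ g p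
  have hτN : Nrm (tg τ g p) := tg_nrm τ g p
  have hτcL : CocL (univ : Set Q) n (tg τ g p) := ⟨δτ, hδτ, hτc⟩
  -- `ν`
  obtain ⟨ν, hνN, hνV⟩ := exists_nprim hτN (hτcL.mono (subset_univ (C.L (h' + 1))))
    (lvan C (h' + 1) (by omega) (fun i hi hcon => by
      have : d * (i + 1) ≤ d * (h' + 1) := Nat.mul_le_mul_left d (by omega)
      have e1 : d * (i + 1) = d * i + d := by ring
      omega) (hτcL.mono (subset_univ _)))
  set κ : List Q → k := fun l => tg τ g p l - dl ν l with hκ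
  have hκN : Nrm κ := hτN.sub hνN.dl
  -- `ω`
  set bt : List Q → k := fun m => beta Nη ξ r p (m.map g) with hbt
  have hbN : Nrm bt := (beta_nrm Nη hξN r p).map g
  set ω : List Q → k := om n d ν (tg τ g p) S.ξ bt with hω
  have hωN : Nrm ω := om_nrm hνN hτN S.nξ hbN
  have hωc : CocL (C.L (h' + 1)) (n + (d - 1)) ω := by
    refine om_cocL (e := d - 1) (by omega) (by omega) (by omega) hνV S.hε S.cξ hδτ hτc hδg
      fun m hm hsm hne => ?_
    have hball := ball_of_ne τ (g := g) (r := r) (m := m) (fun y hy y' hy' =>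
      (hgu' y y' (hsm y hy y' hy')).trans_le (min_le_left _ _))
      (by rintro rfl; simp at hm) hne
    have e1 : dl bt (m.drop n) = dl (beta Nη ξ r p) ((m.drop n).map g) :=
      N929.dl_map (beta Nη ξ r p) g (m.drop n)
    rw [e1, hβ _ (by rw [List.length_map, List.length_drop]; omega) ⟨fun x hx => ?_,
      fun x hx x' hx' => ?_⟩, hS, hd1]
    · obtain ⟨y, hy, rfl⟩ := List.mem_map.1 hx
      exact hball y (List.mem_of_mem_drop hy)
    · obtain ⟨y, hy, rfl⟩ := List.mem_map.1 hx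
      obtain ⟨y', hy', rfl⟩ := List.mem_map.1 hx'
      exact (hgu' y y' (hsm y (List.mem_of_mem_drop hy) y' (List.mem_of_mem_drop hy'))).trans_le
        (min_le_right _ _)
  obtain ⟨ω₂, hω₂N, hω₂V⟩ := exists_nprim hωN hωc (lvan C (h' + 1) (by omega) (fun i hi hcon => by
      have : d * (i + 1) ≤ d * (h' + 1) := Nat.mul_le_mul_left d (by omega)
      have e1 : d * (i + 1) = d * i + d := by ring
      omega) hωc)
  set ω' : List Q → k := fun l => ω l - dl ω₂ l with hω'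
  have hω'N : Nrm ω' := hωN.sub hω₂N.dl
  -- the corrected cochain
  set Z : List (Q × (ℝ →ᵇ M)) → k := Zq n ν (tg τ g p) ω₂ (eta Nη ξ) θ with hZ
  set V : List (Q × (ℝ →ᵇ M)) → k := fun l => V₀ (l.map Prod.snd) + (-c₀) * Z l with hV
  have key : ∃ ε > 0, ∀ l : List (Q × (ℝ →ᵇ M)), l.length = n + (d - 1) + 1 →
      SmL (EQ g q (T : ℝ)) ε l → dl V l = c₀ * (-(κ ((l.take (n + 1)).map Prod.fst) *
        eta Nη ξ ((l.drop n).map Prod.snd)) + ω' (l.map Prod.fst)) := by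
    refine ⟨min (min η₀ ηθ) (min δg (min (ε₀ / 4) δτ)), by positivity, fun l hl hsm => ?_⟩
    have s1 : SmL (EQ g q (T : ℝ)) η₀ l :=
      hsm.mono le_rfl ((min_le_left _ _).trans (min_le_left _ _))
    have s2 : SmL (EQ g q (T : ℝ)) ηθ l :=
      hsm.mono le_rfl ((min_le_left _ _).trans (min_le_right _ _))
    have s3 : SmL (EQ g q (T : ℝ)) δg l :=
      hsm.mono le_rfl ((min_le_right _ _).trans (min_le_left _ _))
    have s4 : SmL (EQ g q (T : ℝ)) (ε₀ / 4) l :=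
      hsm.mono le_rfl ((min_le_right _ _).trans ((min_le_right _ _).trans (min_le_left _ _)))
    have s5 : SmL (EQ g q (T : ℝ)) δτ l :=
      hsm.mono le_rfl ((min_le_right _ _).trans ((min_le_right _ _).trans (min_le_right _ _)))
    have a1 : dl (fun l => eta Nη ξ (l.map Prod.snd)) (l.drop (n - 1)) =
        (-1) ^ d * S.ξ ((l.drop (n - 1)).map Prod.fst) :=
      dl_etaS hE hS (by rw [List.length_drop]; omega)
        (sml_sub s4 fun x hx => List.mem_of_mem_drop hx)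
    have a2 : dl (fun l : List (Q × (ℝ →ᵇ M)) => tg τ g p (l.map Prod.fst)) (l.take (n + 2)) =
        0 := by
      rw [N929.dl_map (tg τ g p) Prod.fst]
      refine hτc _ (by rw [List.length_map, List.length_take]; omega) ?_
      exact sml_fst (sml_sub s5 fun x hx => List.mem_of_mem_take hx) fun _ _ => mem_univ _
    have a3 := Th_eq (e := d - 1) hU hr hrρ τ (g := g) (p := p) (q := q) (Nη := Nη) (T := T) hξN
      (θ := θ) hl s1.1 (fun x hx y hy => (hgu' x.1 y.1 ((le_max_left _ _).trans_lt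
        (s3.2 x hx y hy))).trans_le (min_le_left _ _)) (by
        refine hθ _ (by rw [List.length_map, List.length_drop]; omega) ?_
        exact fine_snd (sml_sub s2 fun x hx => List.mem_of_mem_drop hx))
    have a4 := end_eq (d := d) (ν := ν) (θ := θ) (ξ := S.ξ) (ω₂ := ω₂) (bt := bt) (by omega : 1 ≤ n)
      (by omega : 1 ≤ d - 1) (by omega) hl a1 a2 a3
    have a5 : dl V l = dl V₀ (l.map Prod.snd) + (-c₀) * dl Z l := by
      rw [hV, N929.dl_add_fun, N929.dl_smul_fun, N929.dl_map V₀ Prod.snd]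
    rw [a5, hdV _ (by rw [List.length_map, hl]) (fine_snd s1)]
    show _ = c₀ * (-((tg τ g p _ - dl ν _) * eta Nη ξ _) + (ω _ - dl ω₂ _))
    rw [hω, ← a4]
    ring
  -- `V` is closed over `L h`
  have hVc : ∀ t : ℝ, t ≤ (T : ℝ) → CocL (Xq C g q (h' + 1) t) D' V := by
    intro t ht
    obtain ⟨ε₁, hε₁, key⟩ := key
    obtain ⟨ε₂, hε₂, v1⟩ := hνV
    obtain ⟨ε₃, hε₃, v2⟩ := hω₂V
    refine ⟨min ε₁ (min ε₂ ε₃), by positivity, fun l hl hsm => ?_⟩
    have b1 : κ ((l.take (n + 1)).map Prod.fst) = 0 := by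
      refine v1 _ (by rw [List.length_map, List.length_take]; omega) ?_
      exact (sml_fst (sml_sub hsm fun x hx => List.mem_of_mem_take hx) fun w hw => hw.2).mono
        le_rfl ((min_le_right _ _).trans (min_le_left _ _))
    have b2 : ω' (l.map Prod.fst) = 0 := by
      refine v2 _ (by rw [List.length_map]; omega) ?_
      exact (sml_fst hsm fun w hw => hw.2).mono le_rfl
        ((min_le_right _ _).trans (min_le_right _ _))
    rw [key l (by omega) (hsm.mono (fun w hw => EY_mono ht le_rfl hw.1) (min_le_left _ _)), b1, b2]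
    ring
  -- (A) exactness over the handle `0`
  obtain ⟨Tk₀, hTk₀⟩ := hTr q 0 (Nat.zero_le _)
  let C₀ : Cell Q 0 (C.D 0) (C.D 0 ∩ C.L 0) := C.cellL (Nat.zero_le _)
  have hp₀ : C₀.ψ Fin.elim0 ∈ C.D 0 := C₀.ψ_mem _ fun i => i.elim0
  have hS0 : C.D 0 ∩ C.L 0 = ∅ := by rw [C.L_zero, inter_empty]
  have hYX : ∀ t, Xq C g q 1 t = ovr Prod.fst (EQ g q) (C.D 0) t := by
    intro t
    rw [Xq_succ C g q 0, Xq_zero, empty_union]
  have hTR : (T : ℝ) = Lv + m + m := by rw [hT]; push_cast; ring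
  have hA : ExL (Xq C g q 1 (Lv : ℝ)) D' V := by
    rw [hYX]
    refine stepAq C₀ (C.closed 0) hS0 g.continuous (a := q) (s := ((Lv + m : ℕ) : ℝ))
      (t := (T : ℝ)) hTk₀ hLv0 (by push_cast; linarith) (by push_cast; linarith)
      ?_ ?_
    · rw [← hYX]
      exact (hVc _ le_rfl).mono (Xq_le C g q (by omega) _)
    · obtain ⟨s, hs0, ε, hε, hW⟩ := exL_rv hW
      refine ⟨s, hs0, ε, hε, fun l hl hsm => ?_⟩
      rw [← hW l hl hsm]
      have z1 : tg τ g p (((l.map fun z => GQ Tk₀ m (C₀.ψ Fin.elim0, z)).take (n + 1)).map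
          Prod.fst) = 0 := by
        refine nrm_const hτN (p := C₀.ψ Fin.elim0)
          (by rw [List.length_map, List.length_take, List.length_map]; omega) fun x hx => ?_
        obtain ⟨z, hz, rfl⟩ := List.mem_map.1 hx
        obtain ⟨w, hw, rfl⟩ := List.mem_map.1 (List.mem_of_mem_take hz)
        rfl
      have z2 : Z (l.map fun z => GQ Tk₀ m (C₀.ψ Fin.elim0, z)) = 0 := by
        refine Zq_const (m := D' + 1) hnd (by omega) hνN hτN hω₂N (by rw [List.length_map, hl])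
          (by omega) (y := C₀.ψ Fin.elim0) (fun x hx => ?_) z1
        obtain ⟨z, hz, rfl⟩ := List.mem_map.1 hx
        rfl
      show V₀ ((l.map fun z => GQ Tk₀ m (C₀.ψ Fin.elim0, z)).map Prod.snd) + (-c₀) * Z _ = _
      rw [z2, mul_zero, add_zero, List.map_map]
      refine W539.v3 k M n N (Lv + m) m ρ₁ r q p q τ (eta Nη ξ) hnd hqp
        (fun σ => Tk₀ (C₀.ψ Fin.elim0) (m - (m - σ)))
        (fun z => (GQ Tk₀ m (C₀.ψ Fin.elim0, z)).2) l (by omega) fun w hw => ⟨hsm.1 w hw, ?_, ?_⟩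
      · intro σ hσ
        rw [GQ_apply (q := (C₀.ψ Fin.elim0, w)) (b := q) (t := ((Lv + m : ℕ) : ℝ)) hTk₀
          ⟨hp₀, hsm.1 w hw⟩, lj_left hσ]
      · intro σ hσ
        have h0 := GQ_h0 (q := (C₀.ψ Fin.elim0, w)) (b := q) (t := ((Lv + m : ℕ) : ℝ)) hTk₀
          ⟨hp₀, hsm.1 w hw⟩
        rw [GQ_apply (q := (C₀.ψ Fin.elim0, w)) (b := q) (t := ((Lv + m : ℕ) : ℝ)) hTk₀
          ⟨hp₀, hsm.1 w hw⟩, lj_right h0 hσ]
  -- (B) exactness over `L h`
  have hBx : ExL (Xq C g q (h' + 1) ((t'' : ℝ) + m)) D' V := by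
    obtain ⟨Y, -⟩ := hY k h2 S ξ ε₀ Nη hε₀ hE hS q
    obtain ⟨c, hc, hinj⟩ := Lad.mid_inj Y hr'
    have hc1 : c = c₁ := hc
    have hx : CocR (Xq C g q (h' + 1) (Lv : ℝ)) ∅ D' V :=
      (hVc _ (by rw [hTR]; linarith)).toR
    have ht0 : (0 : ℝ) < (t'' : ℝ) + m := by
      rw [ht'']
      push_cast
      positivity
    have h0 := hinj ((t'' : ℝ) + m) (Lv : ℝ) ht0 hTv hLv0 (by
        rw [hc1, hLv]
        push_cast
        linarith [Nat.le_ceil ((h' : ℝ) * c₁)])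
      (clsR (tr (Q × (ℝ →ᵇ M))) (on k) V hx)
      ((toZero_clsRq hLv0 h' hx).trans (clsR_eq_zero.2 hA.toR))
    have h1 : clsR (tr (Q × (ℝ →ᵇ M))) (on k) V (hx.mono (monoq_X C g q (h' + 1) _ _ ht0 hTv)
        subset_rfl) = 0 := h0
    exact (clsR_eq_zero.1 h1).exL
  -- (D) the slant
  obtain ⟨Tk, hTk⟩ := hTr p (h' + 1) le_rfl
  obtain ⟨s, -, ε, hε, hVs⟩ := hBx
  obtain ⟨εk, hεk, key⟩ := key
  have hD := stepDq (k := k) (n := n) (e := d - 1) (t'' := t'') (c := m) (by omega) (by omega)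
    (C.closed (h' + 1)) (S := C.D (h' + 1) ∩ C.L (h' + 1)) inter_subset_left
    (q := q) hTk (V := V) (s := s) (κ := κ) (ω := ω') (η := eta Nη ξ) hc₀0 hκN hω'N
    ⟨εk, hεk, fun l hl hsm => key l hl (hsm.mono (EY_mono (by rw [hTR]; linarith) le_rfl) le_rfl)⟩
    ⟨ε, hε, fun l hl hsm => hVs l (by omega) (hsm.mono (fun w hw => ⟨hw.1, hw.2.2⟩) le_rfl)⟩
    (fun v hv t ht htz => eta_GQ (b := q) (t := (t'' : ℝ)) hE hTk hv (by omega) htz)
    (hB k h2 S ξ ε₀ Nη hε₀ hE hS p q t'' (by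
      rw [ht'']
      push_cast
      linarith [Nat.le_ceil B]))
  -- excision
  have hcR : CocR (C.L (h' + 1 + 1)) (C.L (h' + 1)) n κ :=
    ⟨(cocL_sub_dl hτcL ν).mono (subset_univ _), hνV⟩
  have hfin := (C337.excL Q d (h' + 1) C k h2 (h' + 1) le_rfl n _ hcR hD).exL
  rw [C.L_top] at hfin
  obtain ⟨w, hw0, δw, hδw, hw⟩ := hfin
  refine tg_ne τ f g hgf p hτ ⟨fun l => w l + ν l, fun h0 => absurd h0 (by omega), δw, hδw,
    fun l hl hsm => ?_⟩
  have e1 : tg τ g p l - dl ν l = dl w l := hw l hl hsm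
  rw [N929.dl_add_fun, ← e1]
  ring

end Vale.Agent.P216.D133
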