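import Vale.Agent.P216.D133.Low
import Vale.Agent.P216.D133.EtaRv
import Vale.Agent.P216.H140.W1
import Vale.Agent.P216.H787.Rev

/-!
# P216-D, block [D2-OM], `W_1 ≠ 0`: the cochains on `Q`

* `lvan`: `H^m(L j) = 0` for `m ≠ d i`, `i < j`;
* `exists_nprim`: normalised primitives;
* `tg`: the slice `τ (g y, p)`, not exact on `Q`;
* `ball_of_ne`: small lists on which it does not vanish lie over the ball;
* `Zq`, `dl_Zq`, `om`, `om_cocL`: the correction terms.
-/

set_option linter.all false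

open Set Finsupp BoundedContinuousFunction

namespace Vale.Agent.P216.D133

open Vale.Agent.P216.AS Vale.Agent.P216.H901 Vale.Agent.P216.H83 Vale.Agent.P216.Sl
open Vale.Agent.P216.H456 Vale.Agent.P216.H456C Vale.Agent.P216.MV337 Vale.Agent.P216.H133C
open Vale.Agent.P216.PS Vale.Agent.P216.H140
open Vale.Agent.P216.N929 (Coc Fine Tau Scl)
open Vale.Agent.P216.C337 (smL_sub cocL_sub_dl)
open Vale.Agent.P216.C313 (sml_sub)

section Van

variable {k : Type} [Field k] {Q : Type} [MetricSpace Q] {d h : ℕ}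

/-- Degrees which are not the index of a handle. -/
theorem lvan [CompactSpace Q] (C : CellDec Q d h) {m : ℕ} : ∀ (j : ℕ), j ≤ h + 1 →
    (∀ i < j, m ≠ d * i) → ∀ {F : List Q → k}, CocL (C.L j) m F → ExL (C.L j) m F
  | 0, _, _, F, _ => by
    rw [C.L_zero]
    refine ⟨fun _ => 0, fun _ _ => rfl, 1, one_pos, fun l hl hs => ?_⟩
    obtain ⟨x, l, rfl⟩ := List.exists_cons_of_length_pos (l := l) (by omega)
    exact absurd (hs.1 x List.mem_cons_self) (notMem_empty _)
  | j + 1, hj, hm, F, hF => by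
    have hsub : C.L j ⊆ C.L (j + 1) := C.L_mono (Nat.le_succ j)
    obtain ⟨g, hg0, ε, hε, hg⟩ := lvan C j (by omega) (fun i hi => hm i (by omega)) (hF.mono hsub)
    have h1 : CocL (C.L (j + 1)) m fun l => F l - dl g l := cocL_sub_dl hF g
    have h2 : VanL (C.L j) (m + 1) fun l => F l - dl g l :=
      ⟨ε, hε, fun l hl hs => by
        show F l - dl g l = 0
        rw [hg l hl hs, sub_self]⟩
    have h3 := C313.cellRel_zero (k := k) C (show j ≤ h by omega) (hm j (by omega))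
      (clsR (tr Q) (on k) _ (show CocR (C.L (j + 1)) (C.L j) m _ from ⟨h1, h2⟩))
    obtain ⟨g', hg0', ε', hε', hg'⟩ := (clsR_eq_zero.1 h3).exL
    refine ⟨fun l => g l + g' l, fun h0 l => by
      show g l + g' l = 0
      rw [hg0 h0, hg0' h0, add_zero], ε', hε', fun l hl hs => ?_⟩
    rw [N929.dl_add_fun, ← hg' l hl hs]
    ring

/-- Normalised primitives. -/
theorem exists_nprim {X : Set Q} {m : ℕ} {F : List Q → k} (hN : Nrm F) (hc : CocL X m F)
    (he : ExL X m F) : ∃ ν : List Q → k, Nrm ν ∧ VanL X (m + 1) fun l => F l - dl ν l := by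
  obtain ⟨ν, h1, -, h3⟩ := C337.exists_prim hN hc vanL_empty he.toR
  exact ⟨ν, h1, h3⟩

end Van

section Slice

variable {k : Type} [Field k] {Q M : Type} [MetricSpace Q] [CompactSpace Q] [MetricSpace M]
  [CompactSpace M] {n : ℕ} {ρ₁ : ℝ}

/-- The slice over `Q`. -/
def tg (τ : Tau k M n ρ₁) (g : Q → M) (p : M) (m : List Q) : k := τ.f (m.map fun y => (g y, p))

omit [CompactSpace Q] [CompactSpace M] [MetricSpace Q] in
theorem tg_nrm (τ : Tau k M n ρ₁) (g : Q → M) (p : M) : Nrm (tg τ g p) :=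
  τ.nrm.map fun y => (g y, p)

/-- The slice over `Q` is a cocycle. -/
theorem tg_coc (τ : Tau k M n ρ₁) (g : C(Q, M)) (p : M) :
    ∃ δ > 0, Coc (univ : Set Q) δ n (tg τ g p) := by
  have h1 : Coc (univ : Set M) τ.ε n fun l => τ.f (l.map fun x => (x, p)) := by
    intro l hl hs
    rw [N929.dl_map τ.f fun x => (x, p)]
    refine τ.coc _ (by rw [List.length_map, hl]) ⟨fun _ _ => mem_univ _, fun a ha b hb => ?_⟩
    obtain ⟨x, hx, rfl⟩ := List.mem_map.1 ha
    obtain ⟨y, hy, rfl⟩ := List.mem_map.1 hb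
    rw [Prod.dist_eq, dist_self, max_eq_left dist_nonneg]
    exact hs.2 x hx y hy
  obtain ⟨δ, hδ, h2⟩ := coc_map g τ.hε h1
  refine ⟨δ, hδ, fun l hl hs => ?_⟩
  have e : tg τ g p = fun l => (fun l : List M => τ.f (l.map fun x => (x, p))) (l.map g) := by
    funext l
    show τ.f _ = τ.f ((l.map g).map _)
    rw [List.map_map]
    rfl
  rw [e]
  exact h2 l hl hs

/-- The slice over `Q` is not exact. -/
theorem tg_ne (τ : Tau k M n ρ₁) (f : C(M, Q)) (g : C(Q, M))
    (hgf : (g.comp f).Homotopic (ContinuousMap.id M)) (p : M)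
    (hτ : ¬ ExL (univ : Set M) n fun l => τ.f (l.map fun x => (x, p))) :
    ¬ ExL (univ : Set Q) n (tg τ g p) := by
  rintro ⟨u, hu0, ε, hε, hu⟩
  have e1 : ExL (univ : Set M) n fun l =>
      (fun l : List M => τ.f (l.map fun x => (x, p))) (l.map (g.comp f)) -
      (fun l : List M => τ.f (l.map fun x => (x, p))) (l.map (ContinuousMap.id M)) :=
    exL_htpy hgf (slice_cocL τ p)
  obtain ⟨s, hs0, δ, hδ, hs⟩ := e1
  obtain ⟨δ', hδ', huc⟩ := (map_uc f).uc ε hε
  refine hτ ⟨fun l => u (l.map f) + (-1) * s l, fun h0 l => by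
    show u _ + (-1) * s l = 0
    rw [hu0 h0, hs0 h0]; ring, min δ δ', lt_min hδ hδ', fun l hl hsm => ?_⟩
  have a1 : τ.f ((l.map (g.comp f)).map fun x => (x, p)) -
      τ.f ((l.map (ContinuousMap.id M)).map fun x => (x, p)) = dl s l :=
    hs l hl (hsm.mono le_rfl (min_le_left _ _))
  have a2 : tg τ g p (l.map f) = dl u (l.map f) := by
    refine hu _ (by rw [List.length_map, hl]) ⟨fun _ _ => mem_univ _, fun a ha b hb => ?_⟩
    obtain ⟨x, hx, rfl⟩ := List.mem_map.1 ha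
    obtain ⟨y, hy, rfl⟩ := List.mem_map.1 hb
    exact huc x trivial y trivial ((hsm.2 x hx y hy).trans_le (min_le_right _ _))
  have a3 : l.map (ContinuousMap.id M) = l := by
    conv_rhs => rw [← List.map_id l]
    exact List.map_congr_left fun x _ => rfl
  have a4 : tg τ g p (l.map f) = τ.f ((l.map (g.comp f)).map fun x => (x, p)) := by
    show τ.f ((l.map f).map _) = _
    rw [List.map_map, List.map_map]
    rfl
  rw [a3] at a1
  rw [PS.dl_add (fun l => u (l.map f)) (fun l => (-1) * s l) l, PS.dl_smul, ← a1,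
    N929.dl_map u f, ← a2, a4]
  ring

omit [CompactSpace Q] [CompactSpace M] [MetricSpace Q] in
/-- Small lists on which the slice does not vanish lie over the ball. -/
theorem ball_of_ne (τ : Tau k M n ρ₁) {g : Q → M} {p : M} {r : ℝ} {m : List Q}
    (hm : ∀ y ∈ m, ∀ y' ∈ m, dist (g y) (g y') < r - ρ₁) (h0 : m ≠ [])
    (hτ : tg τ g p (m.take (n + 1)) ≠ 0) : ∀ y ∈ m, dist (g y) p ≤ r := by
  obtain ⟨y', hy'⟩ : ∃ y', y' ∈ m.take (n + 1) := by
    obtain ⟨y', m, rfl⟩ := List.exists_cons_of_ne_nil h0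
    exact ⟨y', by rw [List.take_succ_cons]; exact List.mem_cons_self⟩
  have h4 : dist (g y') p < ρ₁ := by
    by_contra hcon
    exact hτ (τ.supp _ ⟨(g y', p), List.mem_map.2 ⟨y', hy', rfl⟩, not_lt.1 hcon⟩)
  intro y hy
  have h5 := hm y hy y' (List.mem_of_mem_take hy')
  linarith [dist_triangle (g y) (g y') p]

end Slice

section Alg

variable {k : Type} [Field k] {Q : Type} {n d e : ℕ}

/-- The correction term. -/
noncomputable def Zq {β : Type} (n : ℕ) (ν tp ω₂ : List Q → k) (η θ : List β → k) :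
    List (Q × β) → k := fun l =>
  (-1) * N929.cup (n - 1) (fun l => ν (l.map Prod.fst)) (fun l => η (l.map Prod.snd)) l +
    ((-1) ^ n * N929.cup n (fun l => tp (l.map Prod.fst)) (fun l => θ (l.map Prod.snd)) l +
      ω₂ (l.map Prod.fst))

/-- The class on `Q`. -/
noncomputable def om (n d : ℕ) (ν tp ξ β : List Q → k) : List Q → k := fun m =>
  (-1) ^ (n - 1 + d) * N929.cup (n - 1) ν ξ m + N929.cup n tp β m

theorem dl_Zq {β : Type} {ν tp ω₂ ξ : List Q → k} {η θ : List β → k} (hn : 1 ≤ n) (he : 1 ≤ e)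
    (hd : d = e + 1) {l : List (Q × β)} (hl : l.length = n + e + 1)
    (h1 : dl (fun l : List (Q × β) => η (l.map Prod.snd)) (l.drop (n - 1)) =
      (-1) ^ d * ξ ((l.drop (n - 1)).map Prod.fst))
    (h2 : dl (fun l : List (Q × β) => tp (l.map Prod.fst)) (l.take (n + 2)) = 0) :
    dl (Zq n ν tp ω₂ η θ) l =
      -(dl ν ((l.take (n + 1)).map Prod.fst) * η ((l.drop n).map Prod.snd) +
        (-1) ^ (n - 1 + d) * (ν ((l.take n).map Prod.fst) * ξ ((l.drop (n - 1)).map Prod.fst))) +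
      (tp ((l.take (n + 1)).map Prod.fst) * dl θ ((l.drop n).map Prod.snd) +
        dl ω₂ (l.map Prod.fst)) := by
  obtain ⟨n, rfl⟩ : ∃ n', n = n' + 1 := ⟨n - 1, by omega⟩
  rw [Nat.add_sub_cancel] at h1 ⊢
  unfold Zq
  rw [Nat.add_sub_cancel]
  rw [N929.dl_add_fun, N929.dl_smul_fun, N929.dl_add_fun, N929.dl_smul_fun,
    N929.dl_cup n _ _ l (by omega), N929.dl_cup (n + 1) _ _ l (by omega), h1, h2,
    N929.dl_map ω₂ Prod.fst, N929.dl_map ν Prod.fst, N929.dl_map θ Prod.snd]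
  have e1 : ((-1 : k)) ^ (n + 1) * (-1) ^ (n + 1) = 1 := by
    rw [← mul_pow]; norm_num
  have e2 : (-1 : k) ^ (n + d) = (-1) ^ n * (-1) ^ d := pow_add _ _ _
  rw [e2]
  linear_combination (tp ((l.take (n + 1 + 1)).map Prod.fst) *
    dl θ ((l.drop (n + 1)).map Prod.snd)) * e1

/-- The identity for the integrand at the end. -/
theorem end_eq {β : Type} {ν tp ω₂ ξ bt : List Q → k} {η θ : List β → k} (hn : 1 ≤ n) (he : 1 ≤ e)
    (hd : d = e + 1) {l : List (Q × β)} (hl : l.length = n + e + 1)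
    (h1 : dl (fun l : List (Q × β) => η (l.map Prod.snd)) (l.drop (n - 1)) =
      (-1) ^ d * ξ ((l.drop (n - 1)).map Prod.fst))
    (h2 : dl (fun l : List (Q × β) => tp (l.map Prod.fst)) (l.take (n + 2)) = 0) {T : k}
    (hT : T = tp ((l.take (n + 1)).map Prod.fst) * (-η ((l.drop n).map Prod.snd) +
      dl θ ((l.drop n).map Prod.snd) + bt ((l.drop n).map Prod.fst))) :
    T - dl (Zq n ν tp ω₂ η θ) l =
      -((tp ((l.take (n + 1)).map Prod.fst) - dl ν ((l.take (n + 1)).map Prod.fst)) *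
        η ((l.drop n).map Prod.snd)) +
      (om n d ν tp ξ bt (l.map Prod.fst) - dl ω₂ (l.map Prod.fst)) := by
  rw [dl_Zq (ξ := ξ) hn he hd hl h1 h2, hT]
  have e1 : n - 1 + 1 = n := by omega
  unfold om N929.cup
  rw [e1, ← List.map_take, ← List.map_take, ← List.map_drop, ← List.map_drop]
  ring

/-- `om` is normalised. -/
theorem om_nrm {ν tp ξ β : List Q → k} (h1 : Nrm ν) (h2 : Nrm tp) (h3 : Nrm ξ) (h4 : Nrm β) :
    Nrm (om n d ν tp ξ β) :=
  Sl.Nrm.add (Sl.Nrm.smul _ (N929.Nrm.cup (n - 1) h1 h3)) (N929.Nrm.cup n h2 h4)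

/-- `om` is a cocycle over `L`. -/
theorem om_cocL [PseudoMetricSpace Q] {L : Set Q} {ν tp ξ β : List Q → k} (hn : 1 ≤ n)
    (he : 1 ≤ e) (hd : d = e + 1) (hν : VanL L (n + 1) fun l => tp l - dl ν l) {δ₁ δ₂ δ₃ : ℝ}
    (h1 : 0 < δ₁) (hξ : Coc (univ : Set Q) δ₁ d ξ) (h2 : 0 < δ₂) (hτ : Coc (univ : Set Q) δ₂ n tp)
    (h3 : 0 < δ₃) (hβ : ∀ m : List Q, m.length = n + e + 2 → (∀ y ∈ m, ∀ y' ∈ m, dist y y' < δ₃) →
      tp (m.take (n + 1)) ≠ 0 → dl β (m.drop n) = (-1) ^ d * ξ (m.drop n)) :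
    CocL L (n + e) (om n d ν tp ξ β) := by
  obtain ⟨δ₀, h0, hν⟩ := hν
  obtain ⟨n, rfl⟩ : ∃ n', n = n' + 1 := ⟨n - 1, by omega⟩
  refine ⟨min (min δ₀ δ₁) (min δ₂ δ₃), by positivity, fun m hm hs => ?_⟩
  have s0 : SmL L δ₀ m := hs.mono le_rfl ((min_le_left _ _).trans (min_le_left _ _))
  have s1 : SmL L δ₁ m := hs.mono le_rfl ((min_le_left _ _).trans (min_le_right _ _))
  have s2 : SmL L δ₂ m := hs.mono le_rfl ((min_le_right _ _).trans (min_le_left _ _))
  have s3 : SmL L δ₃ m := hs.mono le_rfl ((min_le_right _ _).trans (min_le_right _ _))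
  have a1 : dl ν (m.take (n + 1 + 1)) = tp (m.take (n + 1 + 1)) := by
    have := hν (m.take (n + 1 + 1)) (by rw [List.length_take]; omega)
      (sml_sub s0 fun x hx => List.mem_of_mem_take hx)
    exact (sub_eq_zero.1 this).symm
  have a2 : dl ξ (m.drop n) = 0 := hξ _ (by rw [List.length_drop]; omega)
    ((sml_sub s1 fun x hx => List.mem_of_mem_drop hx).mono (subset_univ _) le_rfl)
  have a3 : dl tp (m.take (n + 1 + 2)) = 0 := hτ _ (by rw [List.length_take]; omega)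
    ((sml_sub s2 fun x hx => List.mem_of_mem_take hx).mono (subset_univ _) le_rfl)
  unfold om
  rw [N929.dl_add_fun, N929.dl_smul_fun, Nat.add_sub_cancel, N929.dl_cup n _ _ m (by omega),
    N929.dl_cup (n + 1) _ _ m (by omega), a1, a2, a3]
  by_cases ht : tp (m.take (n + 1 + 1)) = 0
  · rw [ht]; ring
  · rw [hβ m hm s3.2 ht]
    have e2 : (-1 : k) ^ (n + d) = (-1) ^ n * (-1) ^ d := pow_add _ _ _
    rw [e2, pow_succ]
    ring

end Alg

end Vale.Agent.P216.D133
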