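import Vale.Agent.P216.D133.W1A

/-!
# P216-D, block [D2-OM], `W_1 ≠ 0`: the slant over the top handle of `Q`

`stepDq`: if `dl V = ± (- κ ∪ η + ω)` and `V = dl s` over `S ⊆ D`, the slant by a fine cycle `u` of
paths with `η(u) ≠ 0` shows that `κ` is exact on `(D, S)`.
-/

set_option linter.all false

open Set Finsupp BoundedContinuousFunction

namespace Vale.Agent.P216.D133

open Vale.Agent.P216.AS Vale.Agent.P216.H901 Vale.Agent.P216.H83 Vale.Agent.P216.Sl
open Vale.Agent.P216.H456 Vale.Agent.P216.H456C Vale.Agent.P216.MV337 Vale.Agent.P216.H133C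
open Vale.Agent.P216.PS Vale.Agent.P216.H140
open Vale.Agent.P216.N929 (Coc Fine Tau Scl Cy not_ex_iff)
open Vale.Agent.P216.C337 (smL_sub cocL_sub_dl TrY)
open Vale.Agent.P216.C313 (sml_sub EY)

variable {k : Type} [Field k] {Q M : Type} [MetricSpace Q] [CompactSpace Q] [MetricSpace M]
  [CompactSpace M] {d h : ℕ}

/-- The restriction of a class to the handle of index `0`. -/
theorem toZero_clsRq {C : CellDec Q d h} {g : Q → M} {q : M} {r : ℕ} {t : ℝ} (ht : 0 < t)
    {f : List (Q × (ℝ →ᵇ M)) → k} : ∀ (j : ℕ) (hf : CocR (Xq C g q (j + 1) t) ∅ r f),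
    (ladQ C g q k).toZero j r t ht (clsR (tr (Q × (ℝ →ᵇ M))) (on k) f hf) =
      clsR (tr (Q × (ℝ →ᵇ M))) (on k) f
        (hf.mono (Xq_le C g q (by omega) t : Xq C g q 1 t ⊆ _) subset_rfl) := by
  intro j
  induction j with
  | zero => intro hf; rfl
  | succ j ih =>
    intro hf
    exact ih (hf.mono (Xq_le C g q (by omega) t) subset_rfl)

theorem stepDq {n e t'' c : ℕ} (hn : 1 ≤ n) (he : 1 ≤ e) {D S : Set Q} (hD : IsClosed D)
    (hSD : S ⊆ D) {g : Q → M} {a q : M} {Tk : Q → ℝ → M} (hT : TrY D g (fun _ => a) (c : ℝ) Tk)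
    {V s : List (Q × (ℝ →ᵇ M)) → k} {κ ω : List Q → k} {η : List (ℝ →ᵇ M) → k} {c₀ : k}
    (hc₀ : c₀ ≠ 0) (hκ : Nrm κ) (hω : Nrm ω)
    (hV : ∃ ε > 0, ∀ l : List (Q × (ℝ →ᵇ M)), l.length = n + e + 1 →
      SmL (EQ g q ((t'' : ℝ) + c)) ε l → dl V l = c₀ * (-(κ ((l.take (n + 1)).map Prod.fst) *
        η ((l.drop n).map Prod.snd)) + ω (l.map Prod.fst)))
    (hs : ∃ ε > 0, ∀ l : List (Q × (ℝ →ᵇ M)), l.length = n + e →
      SmL (ovr Prod.fst (EQ g q) S ((t'' : ℝ) + c)) ε l → V l = dl s l)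
    (hg : ∀ v ∈ D, ∀ t : List (ℝ →ᵇ M), t.length = e + 1 → (∀ z ∈ t, z ∈ P a q t'') →
      η ((t.map fun z => GQ Tk c (v, z)).map Prod.snd) = η t)
    (hu : ¬ ExL (P a q t'') e η) : ExR D S n κ := by
  classical
  obtain ⟨ε₁, hε₁, hV⟩ := hV
  obtain ⟨ε, hε, hs⟩ := hs
  have ht0 : (0 : ℝ) ≤ t'' := by positivity
  have hc0 : (0 : ℝ) ≤ c := by positivity
  -- uniform continuity of the family
  have hcomp : IsCompact (D ×ˢ P a q (t'' : ℝ)) := hD.isCompact.prod (isCompact_P _ _ _)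
  have huc := hcomp.uniformContinuousOn_of_continuous
    (show ContinuousOn (GQ Tk (c : ℝ)) (D ×ˢ P a q (t'' : ℝ)) from GQ_cont (b := q) hT ht0)
  rw [Metric.uniformContinuousOn_iff] at huc
  obtain ⟨δ, hδ, huc⟩ := huc (min ε ε₁) (lt_min hε hε₁)
  obtain ⟨u, hu, hne⟩ := not_ex_iff.1 hu δ hδ
  have hbu : bd u = 0 := N929.bd_eq_zero hu (by omega)
  have huL : u ∈ Sp k (Ln (e + 1)) := Sp_mono (fun l hl => hl.1) hu.1
  -- the primitive
  let G : Q × (ℝ →ᵇ M) → Q × (ℝ →ᵇ M) := GQ Tk c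
  let F' : List (Q × (ℝ →ᵇ M)) → k := fun L => V (L.map G) - dl s (L.map G)
  set lam : k := ev η u with hlam
  -- the family on small lists
  have hmem : ∀ {X : Set Q}, X ⊆ D → ∀ {l : List Q}, (∀ x ∈ l, x ∈ X) →
      ∀ {t : List (ℝ →ᵇ M)}, (∀ z ∈ t, z ∈ P a q t'') → ∀ {L : List (Q × (ℝ →ᵇ M))}, Gr l t L →
      ∀ w ∈ L.map G, w ∈ ovr Prod.fst (EQ g q) X ((t'' : ℝ) + c) := by
    intro X hX l hl t ht L hL w hw
    obtain ⟨x, hx, rfl⟩ := List.mem_map.1 hw
    have h1 := hl _ (hL.2 x hx).1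
    have h2 := ht _ (hL.2 x hx).2
    exact ⟨GQ_mem (b := q) hT ht0 (show x ∈ EY (fun _ => a) q (t'' : ℝ) D from ⟨hX h1, h2⟩)
      (mem_univ _), h1⟩
  have hfine : ∀ {l : List Q}, SmL D δ l → ∀ {t : List (ℝ →ᵇ M)}, Fine (P a q t'') δ t →
      ∀ {L : List (Q × (ℝ →ᵇ M))}, Gr l t L → ∀ w ∈ L.map G, ∀ w' ∈ L.map G,
      dist w w' < min ε ε₁ := by
    intro l hl t ht L hL w hw w' hw'
    obtain ⟨x, hx, rfl⟩ := List.mem_map.1 hw
    obtain ⟨y, hy, rfl⟩ := List.mem_map.1 hw'
    have hx' := hL.2 x hx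
    have hy' := hL.2 y hy
    refine huc x ⟨hl.1 _ hx'.1, ht.1 _ hx'.2⟩ y ⟨hl.1 _ hy'.1, ht.1 _ hy'.2⟩ ?_
    rw [Prod.dist_eq]
    exact max_lt (hl.2 _ hx'.1 _ hy'.1) (ht.2 _ hx'.2 _ hy'.2)
  by_cases hlam0 : lam = 0
  · exact absurd hlam0 hne
  have hcl : c₀ * lam ≠ 0 := mul_ne_zero hc₀ hlam0
  refine ⟨fun l => -(c₀ * lam)⁻¹ * N929.fib u F' l, fun h0 => absurd h0 (by omega),
    ⟨δ, hδ, fun l hl hsm => ?_⟩, δ, hδ, fun l hl hsm => ?_⟩
  · have : N929.fib u F' l = 0 := by
      refine N929.fib_eq_zero hu.1 fun t ht L hL => sub_eq_zero.2 (hs _ ?_ ⟨?_, ?_⟩)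
      · have := hL.1
        rw [List.length_map]
        omega
      · exact hmem hSD hsm.1 ht.2.1 hL
      · exact fun w hw w' hw' => (hfine (hsm.mono hSD le_rfl) ht.2 hL w hw w' hw').trans_le
          (min_le_left _ _)
    change -(c₀ * lam)⁻¹ * N929.fib u F' l = 0
    rw [this, mul_zero]
  · have hl0 : l ≠ [] := by rintro rfl; simp at hl
    obtain ⟨v, hv⟩ : ∃ v, l.drop n = [v] := List.length_eq_one_iff.1 (by
      rw [List.length_drop]; omega)
    have hvl : v ∈ l := List.mem_of_mem_drop (i := n) (by rw [hv]; exact List.mem_singleton_self v)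
    have hvD : v ∈ D := hsm.1 v hvl
    have e0 : dl (fun l => -(c₀ * lam)⁻¹ * N929.fib u F' l) l =
        -(c₀ * lam)⁻¹ * N929.fib u (dl F') l := by
      rw [N929.dl_smul_fun, dl_fibC he huL hbu F' hl0]
    -- `dl F'` on the grid
    let g' : List (Q × (ℝ →ᵇ M)) → k := fun L => η ((L.map G).map Prod.snd)
    have e1 : N929.fib u (dl F') l =
        N929.fib u (fun L => (-c₀) * (κ ((L.take (n + 1)).map Prod.fst) * g' (L.drop n)) +
          c₀ * ω (L.map Prod.fst)) l := by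
      refine N929.fib_congr hu.1 fun t ht L hL => ?_
      have hlen : L.length = n + e + 1 := by
        have := hL.1
        omega
      have h1 : dl F' L = dl V (L.map G) := by
        have h2 : dl F' L = dl (fun L => V (L.map G)) L - dl (fun L => dl s (L.map G)) L := by
          have h3 : F' = fun L => V (L.map G) + (-1) * dl s (L.map G) := by
            funext L
            change V (L.map G) - dl s (L.map G) = _
            ring
          rw [h3, N929.dl_add_fun, N929.dl_smul_fun]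
          ring
        rw [h2, N929.dl_map V G, N929.dl_map (dl s) G, N929.dl_dl, sub_zero]
      have hmD := hmem subset_rfl hsm.1 ht.2.1 hL
      rw [h1, hV (L.map G) (by rw [List.length_map]; exact hlen)
        ⟨fun w hw => (hmD w hw).1, fun w hw w' hw' =>
          (hfine hsm ht.2 hL w hw w' hw').trans_le (min_le_right _ _)⟩]
      have e2 : ((L.map G).take (n + 1)).map Prod.fst = (L.take (n + 1)).map Prod.fst := by
        rw [← List.map_take, List.map_map]
        rfl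
      have e3 : (L.map G).map Prod.fst = L.map Prod.fst := by
        rw [List.map_map]
        rfl
      have e4 : ((L.map G).drop n).map Prod.snd = (((L.drop n).map G).map Prod.snd) := by
        rw [← List.map_drop]
      rw [e2, e3, e4]
      show _ = (-c₀) * (κ ((L.take (n + 1)).map Prod.fst) * η (((L.drop n).map G).map Prod.snd)) +
        c₀ * ω (L.map Prod.fst)
      ring
    have e2 : N929.fib u (fun L => (-c₀) * (κ ((L.take (n + 1)).map Prod.fst) * g' (L.drop n)) +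
          c₀ * ω (L.map Prod.fst)) l =
        (-c₀) * (κ l * ev (fun t => g' (t.map fun z => (v, z))) u) := by
      have h3 : N929.fib u (fun L => (-c₀) * (κ ((L.take (n + 1)).map Prod.fst) * g' (L.drop n)) +
          c₀ * ω (L.map Prod.fst)) l =
          N929.fib u (fun L => (-c₀) * (κ ((L.take (n + 1)).map Prod.fst) * g' (L.drop n))) l +
          N929.fib u (fun L => c₀ * ω (L.map Prod.fst)) l := by
        unfold N929.fib
        exact ev_add_fun _ _ _
      have h4 : N929.fib u (fun L => c₀ * ω (L.map Prod.fst)) l = 0 := by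
        refine fib_zero_fst (φ := id) huL (fun t ht => ?_) (Sl.Nrm.smul c₀ hω) hl0
          fun t ht L hL => ?_
        · have : t.length = e + 1 := ht
          omega
        · rw [List.map_id]
      rw [h3, h4, add_zero, N929.fib_smul_fun, fib_front hκ g' he huL hl hv]
    have e3 : ev (fun t => g' (t.map fun z => (v, z))) u = lam := by
      refine ev_congr (fun t ht => ?_) hu.1
      change η (((t.map fun z => (v, z)).map G).map Prod.snd) = η t
      rw [← hg v hvD t ht.1 ht.2.1, List.map_map, List.map_map, List.map_map]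
      rfl
    rw [e0, e1, e2, e3]
    field_simp

end Vale.Agent.P216.D133
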